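import Vale.Agent.P150.Beta1.Defs

/-!
# The statements that the modules of the proof for `β < 1` have to supply
-/

namespace Vale.Agent.P150.Beta1

open MeasureTheory ProbabilityTheory Finset Filter Real
open scoped ENNReal Topology

variable {ι : Type*} [Fintype ι] [DecidableEq ι]

/-- Words: exceptional probability `exp (-n)`, uniformly in the diagonals. -/
def WordsStatement (β : ℝ) : Prop :=
  ∀ m : ℕ, ∃ C, ∀ᶠ n : ℕ in atTop,
    Measure.pi (fun _ : Fin n × Fin n => gaussianReal 0 1)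
      {g | ¬GoodWords β m C (skCoupling β g)} ≤ ENNReal.ofReal (exp (-(n : ℝ)))

/-- The rule `E_ν d_k·Ψ ≈ E_ν tr (L_k ∇Ψ)` for every field, tilt and test observable. -/
def RuleStatement (β : ℝ) : Prop :=
  ∀ k : ℕ, ∃ m : ℕ, ∀ C, ∃ C', ∀ (n : ℕ) (J : Fin n → Fin n → ℝ) (y : Fin n → ℝ)
      (F : (Fin n → Bool) → ℝ) (Ψ : (Fin n → Bool) → Fin n → ℝ),
    GoodWords β m C J → (∀ x, 0 < F x) →
      |tmean (gibbs J y) F (fun x => ∑ i, ampD β J y (spins x) k i * Ψ x i)
        - tmean (gibbs J y) F (fun x => tracePair (ampL β J y (spins x) k) Ψ x)|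
      ≤ C' * √(tdir (gibbs J y) F + 1) * √(tmean (gibbs J y) F (testSq Ψ) + 1)

/-- The top scalar equals the drop of the squared norms, in mean square at rate `1/n`. -/
def ScalarStatement (β : ℝ) : Prop :=
  ∀ k : ℕ, ∃ m : ℕ, ∀ C, ∃ C', ∀ (n : ℕ) (J : Fin n → Fin n → ℝ) (y : Fin n → ℝ)
      (F : (Fin n → Bool) → ℝ),
    GoodWords β m C J → (∀ x, 0 < F x) →
      n * tmean (gibbs J y) F (fun x =>
          (ampT β J y (spins x) k
            - (qav (ampA β J y (spins x) k) - qav (ampA β J y (spins x) (k + 1)))) ^ 2)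
      ≤ C' * (tdir (gibbs J y) F + 1)

/-- Zero-field radial inequality, uniformly on the cube. -/
def RadialStatement (β : ℝ) : Prop :=
  ∀ ρ > 0, ∃ κ > 0, Tendsto (fun n : ℕ =>
    Measure.pi (fun _ : Fin n × Fin n => gaussianReal 0 1)
      {g | ∀ z : Fin n → ℝ, ρ ≤ qav (tanhv z) →
        (∑ i, tanhv z i * act (skCoupling β g) (tanhv z) i) + κ * n
          ≤ (∑ i, tanhv z i * z i) + onsager β (tanhv z) * (qav (tanhv z) * n)})
    atTop (𝓝 1)

/-- Pass one: no traps. -/
def TrapStatement (β : ℝ) : Prop :=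
  ∀ δ > 0, ∃ C, Tendsto (fun n : ℕ =>
    Measure.pi (fun _ : Fin n × Fin n => gaussianReal 0 1)
      {g | ∀ F : (Fin n → Bool) → ℝ, (∀ x, 0 < F x) →
        ent (gibbs (skCoupling β g) 0) F
          ≤ C * dirichlet (gibbs (skCoupling β g) 0) (fun x => √(F x))
            + δ * n * mean (gibbs (skCoupling β g) 0) F})
    atTop (𝓝 1)

/-- Pass two: entropy factorisation with a defect of order one (single-site entropies, as the
Dirichlet form of the square root loses the size of large external fields). -/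
def DefectiveStatement (β : ℝ) : Prop :=
  ∃ C, Tendsto (fun n : ℕ =>
    Measure.pi (fun _ : Fin n × Fin n => gaussianReal 0 1)
      {g | ∀ F : (Fin n → Bool) → ℝ, (∀ x, 0 < F x) →
        ent (gibbs (skCoupling β g) 0) F
          ≤ C * ∑ i, siteEnt (gibbs (skCoupling β g) 0) i F
            + C * mean (gibbs (skCoupling β g) 0) F})
    atTop (𝓝 1)

/-- Pass two: weak Poincaré inequality with an exponentially small defect. -/
def WeakPoincareStatement (β : ℝ) : Prop :=
  ∃ C, ∃ c > 0, Tendsto (fun n : ℕ =>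
    Measure.pi (fun _ : Fin n × Fin n => gaussianReal 0 1)
      {g | ∀ (f : (Fin n → Bool) → ℝ) (R : ℝ), (∀ x, |f x| ≤ R) →
        variance (gibbs (skCoupling β g) 0) f
          ≤ C * dirichlet (gibbs (skCoupling β g) 0) f + R ^ 2 * exp (-(c * n))})
    atTop (𝓝 1)

/-- The full answer. -/
def FastMixingStatement : Prop :=
  ∀ β : ℝ, 0 ≤ β → β < 1 → ∃ κ > 0, ∃ C > 0, Tendsto (fun n : ℕ =>
    Measure.pi (fun _ : Fin n × Fin n => gaussianReal 0 1)
      {g | (∀ f : (Fin n → Bool) → ℝ,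
          κ * variance (gibbs (skCoupling β g) 0) f ≤ dirichlet (gibbs (skCoupling β g) 0) f) ∧
        ∀ t : ℝ, C * log n ≤ t → ∀ x, tvDist (gibbs (skCoupling β g) 0) t x ≤ 1 / 4})
    atTop (𝓝 1)

end Vale.Agent.P150.Beta1
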