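import Mathlib
import Vale.Agent.P150.Edge
import Vale.Agent.P245.Gen2.TiltGauss

/-!
# Gaussian concentration and a supremum tail over finitely many affine functions
-/

namespace Vale.Agent.P150.Beta1

open MeasureTheory ProbabilityTheory Finset Real
open Vale.Agent.P245 (law)
open Vale.Agent.P245.General (nsq gd gd_one_eq gauss_tail)

/-- Concentration of a Lipschitz function of a standard Gaussian vector, any finite index type. -/
theorem lipschitz_tail {ι : Type*} [Fintype ι] {f : (ι → ℝ) → ℝ} (hc : Continuous f) {L : ℝ}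
    (hL : 0 < L) (hf : ∀ x y, |f x - f y| ≤ L * √(∑ i, (x i - y i) ^ 2)) {s : ℝ} (hs : 0 ≤ s) :
    (gauss ι).real {x | (∫ y, f y ∂gauss ι) + s ≤ f x} ≤ exp (-(s ^ 2 / (4 * L ^ 2))) := by
  set e := Fintype.equivFin ι
  set T := MeasurableEquiv.piCongrLeft (fun _ : ι => ℝ) e.symm
  have hT : MeasurePreserving T (gauss (Fin (Fintype.card ι))) (gauss ι) :=
    measurePreserving_piCongrLeft (fun _ : ι => gaussianReal 0 1) e.symm
  have hTap : ∀ (x : Fin (Fintype.card ι) → ℝ) (i : ι), T x i = x (e i) := by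
    intro x i
    simp [T, MeasurableEquiv.coe_piCongrLeft, Equiv.piCongrLeft_apply]
  have hcT : Continuous fun x => f (T x) := by
    refine hc.comp (continuous_pi fun i => ?_)
    simp only [hTap]
    exact continuous_apply _
  have hfT : ∀ x y, |f (T x) - f (T y)| ≤ L * √(nsq (x - y)) := by
    intro x y
    refine (hf _ _).trans (le_of_eq ?_)
    congr 2
    simp only [nsq, Pi.sub_apply, hTap]
    exact e.sum_comp fun k => (x k - y k) ^ 2
  have h := gauss_tail hcT hL hfT hs
  have hlaw : law (gd (Fintype.card ι) 1) = gauss (Fin (Fintype.card ι)) := gd_one_eq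
  rw [hlaw, hT.integral_comp T.measurableEmbedding f] at h
  refine le_trans (le_of_eq ?_) h
  have hm : MeasurableSet {x | (∫ y, f y ∂gauss ι) + s ≤ f x} :=
    measurableSet_le measurable_const hc.measurable
  rw [measureReal_def, measureReal_def, ← hT.measure_preimage hm.nullMeasurableSet]
  rfl

/-- A supremum of finitely many `L`-Lipschitz affine functions. -/
theorem sup_tail {S ι : Type*} [Fintype S] [Nonempty S] [Fintype ι] (A : S → ι → ℝ) (c : S → ℝ)
    {L : ℝ} (hL : 0 < L) (hA : ∀ s, ∑ k, A s k ^ 2 ≤ L ^ 2) {r : ℝ} (hr : 0 ≤ r) :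
    (gauss ι).real {g | (∫ g, univ.sup' univ_nonempty
        (fun s => (∑ k, A s k * g k) + c s) ∂gauss ι) + r
          ≤ univ.sup' univ_nonempty fun s => (∑ k, A s k * g k) + c s}
      ≤ exp (-(r ^ 2 / (4 * L ^ 2))) := by
  refine lipschitz_tail (Continuous.finset_sup'_apply univ_nonempty fun s _ => by fun_prop) hL
    (fun x y => ?_) hr
  have key : ∀ x y : ι → ℝ, univ.sup' univ_nonempty (fun s => (∑ k, A s k * x k) + c s)
      ≤ univ.sup' univ_nonempty (fun s => (∑ k, A s k * y k) + c s)
        + L * √(∑ k, (x k - y k) ^ 2) := by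
    intro x y
    refine sup'_le _ _ fun s hs => ?_
    refine le_trans ?_ (add_le_add (le_sup' (fun s => (∑ k, A s k * y k) + c s) hs) le_rfl)
    have h1 := sum_mul_le_sqrt_mul_sqrt univ (A s) fun k => x k - y k
    have h2 : √(∑ k, A s k ^ 2) ≤ L := (sqrt_le_left hL.le).2 (hA s)
    have h3 := mul_le_mul_of_nonneg_right h2 (sqrt_nonneg (∑ k, (x k - y k) ^ 2))
    simp only [mul_sub, sum_sub_distrib] at h1
    linarith
  have e : ∑ k, (y k - x k) ^ 2 = ∑ k, (x k - y k) ^ 2 := sum_congr rfl fun k _ => by ring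
  have h1 := key x y
  have h2 := key y x
  rw [e] at h2
  rw [abs_le]
  constructor <;> linarith

end Vale.Agent.P150.Beta1
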