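import Mathlib
import Vale.Agent.P150.Main

/-!
# AMP started from a configuration: shared definitions for `β < 1`

`ampZ k` is the paper's `z_{k-1}` and `ampA k` its `M_{k-1}`: `ampA 0 = x`,
`ampA (k+1) = tanh (ampZ k)`, `ampZ k = y + J ampA k - B ampA (k-1)`.
-/

namespace Vale.Agent.P150.Beta1

open Finset Real
open scoped Topology

variable {ι : Type*} [Fintype ι]

/-- Matrix times vector. -/
def act (J : ι → ι → ℝ) (a : ι → ℝ) : ι → ℝ := fun i => ∑ j, J i j * a j

/-- Average over the sites. -/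
noncomputable def avg (a : ι → ℝ) : ℝ := (∑ i, a i) / Fintype.card ι

/-- Squared norm per site. -/
noncomputable def qav (m : ι → ℝ) : ℝ := avg fun i => m i ^ 2

/-- The Onsager coefficient of an iterate. -/
noncomputable def onsager (β : ℝ) (m : ι → ℝ) : ℝ := β ^ 2 * (1 - qav m)

/-- Entrywise hyperbolic tangent. -/
noncomputable def tanhv (z : ι → ℝ) : ι → ℝ := fun i => tanh (z i)

/-- The AMP fields started from the configuration `x`. -/
noncomputable def ampZ (β : ℝ) (J : ι → ι → ℝ) (y x : ι → ℝ) : ℕ → ι → ℝ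
  | 0 => fun i => y i + act J x i
  | 1 => fun i =>
      let z := tanhv fun l => y l + act J x l
      y i + act J z i - onsager β z * x i
  | k + 2 => fun i =>
      let a := tanhv (ampZ β J y x (k + 1))
      y i + act J a i - onsager β a * tanhv (ampZ β J y x k) i

/-- The AMP iterates; index `0` is the configuration. -/
noncomputable def ampA (β : ℝ) (J : ι → ι → ℝ) (y x : ι → ℝ) : ℕ → ι → ℝ
  | 0 => x
  | k + 1 => tanhv (ampZ β J y x k)

/-- The increments `M_{k-1} - M_k`. -/
noncomputable def ampD (β : ℝ) (J : ι → ι → ℝ) (y x : ι → ℝ) (k : ℕ) : ι → ℝ :=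
  fun i => ampA β J y x k i - ampA β J y x (k + 1) i

/-- The variance parameter between `ampZ k` and `ampZ (k+1)`. -/
noncomputable def ampDelta (β : ℝ) (J : ι → ι → ℝ) (y x : ι → ℝ) (k : ℕ) : ℝ :=
  β ^ 2 * (qav (ampA β J y x k) - qav (ampA β J y x (k + 1)))

/-- Stein solution for `tanh a - tanh b` and the law `cosh a · N(b, Δ)`; any real `Δ`. -/
noncomputable def steinG (a b Δ : ℝ) : ℝ :=
  (∫ r in (-1 : ℝ)..1, exp (-(a - b) * r + Δ * (1 - r ^ 2) / 2)) / (2 * cosh a * cosh b)

/-- The `a`-derivative of `steinG`. -/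
noncomputable def steinG' (a b Δ : ℝ) : ℝ :=
  -tanh a * steinG a b Δ
    - (∫ r in (-1 : ℝ)..1, r * exp (-(a - b) * r + Δ * (1 - r ^ 2) / 2)) / (2 * cosh a * cosh b)

/-- A word `d J d₁ J … J dₘ` in the coupling matrix and diagonals. -/
def wordMat [DecidableEq ι] (J : ι → ι → ℝ) (d : ι → ℝ) (l : List (ι → ℝ)) : Matrix ι ι ℝ :=
  l.foldl (fun M e => M * (Matrix.of J * Matrix.diagonal e)) (Matrix.diagonal d)

/-- Free value of the diagonal of a word (`fuel` at least the length): the first `J` pairs with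
the `J` in front of `l[j]`. -/
noncomputable def freeVal (β : ℝ) : ℕ → (ι → ℝ) → List (ι → ℝ) → ι → ℝ
  | _, d, [] => d
  | 0, _, _ :: _ => 0
  | fuel + 1, d, e :: r => fun i => d i * ∑ j ∈ range r.length,
      β ^ 2 * avg (freeVal β fuel e (r.take j))
        * freeVal β fuel (r.getD j 0) (r.drop (j + 1)) i

/-- The only property of the disorder used by the identities: words of length at most `m` in `J`
and diagonals in the unit box have free diagonals and small off-diagonal entries, uniformly. -/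
def GoodWords [DecidableEq ι] (β : ℝ) (m : ℕ) (C : ℝ) (J : ι → ι → ℝ) : Prop :=
  (∀ i j, J i j = J j i) ∧ (∀ i, J i i = 0) ∧
  (∀ a : ι → ℝ, ∑ i, act J a i ^ 2 ≤ C * ∑ i, a i ^ 2) ∧
  ∀ (d : ι → ℝ) (l : List (ι → ℝ)), l.length ≤ m → (∀ i, |d i| ≤ 1) →
    (∀ e ∈ l, ∀ i, |e i| ≤ 1) →
      (∑ i, (wordMat J d l i i - freeVal β l.length d l i) ^ 2 ≤ C) ∧
      ∑ i, ∑ j, (if i = j then 0 else wordMat J d l i j ^ 4) ≤ C

variable [DecidableEq ι]

/-- The Stein weights between `ampZ k` and `ampZ (k+1)`. -/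
noncomputable def ampG (β : ℝ) (J : ι → ι → ℝ) (y x : ι → ℝ) (k : ℕ) : ι → ℝ :=
  fun i => steinG (ampZ β J y x k i) (ampZ β J y x (k + 1) i) (ampDelta β J y x k)

/-- The matrices `L_k` representing the increments `ampD k`. -/
noncomputable def ampL (β : ℝ) (J : ι → ι → ℝ) (y x : ι → ℝ) : ℕ → Matrix ι ι ℝ
  | 0 => Matrix.diagonal fun i => 1 - ampA β J y x 1 i ^ 2
  | 1 => Matrix.diagonal (fun i => 1 - ampA β J y x 1 i ^ 2)
      * (Matrix.of J + ampDelta β J y x 0 • 1) * Matrix.diagonal (ampG β J y x 0)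
  | k + 2 =>
      (ampL β J y x (k + 1) * (Matrix.of J + ampDelta β J y x (k + 1) • 1)
        - onsager β (ampA β J y x (k + 1)) • ampL β J y x k)
      * Matrix.diagonal (ampG β J y x (k + 1))

/-- The free top scalars `T_k`, which match `qav (ampA k) - qav (ampA (k+1))`. -/
noncomputable def ampT (β : ℝ) (J : ι → ι → ℝ) (y x : ι → ℝ) : ℕ → ℝ
  | 0 => avg fun i => 1 - ampA β J y x 1 i ^ 2
  | k + 1 => β ^ 2 * ampT β J y x k
      * avg fun i => (1 - ampA β J y x (k + 1) i ^ 2) * ampG β J y x k i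

/-- The configuration as a real vector. -/
def spins (x : ι → Bool) : ι → ℝ := fun i => spin (x i)

/-- Expectation under the normalised tilt `F` of a Gibbs measure. -/
noncomputable def tmean (ρ F φ : (ι → Bool) → ℝ) : ℝ :=
  mean ρ (fun x => F x * φ x) / mean ρ F

/-- Dirichlet energy of the square root of a normalised tilt. -/
noncomputable def tdir (ρ F : (ι → Bool) → ℝ) : ℝ :=
  dirichlet ρ (fun x => √(F x)) / mean ρ F

/-- Squared test norm of a vector observable: values and discrete derivatives. -/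
noncomputable def testSq (Ψ : (ι → Bool) → ι → ℝ) (x : ι → Bool) : ℝ :=
  ∑ i, Ψ x i ^ 2 + ∑ i, ∑ j, deriv2 j (fun y => Ψ y i) x ^ 2

/-- The trace pairing of a matrix with the discrete gradient of an observable. -/
noncomputable def tracePair (L : Matrix ι ι ℝ) (Ψ : (ι → Bool) → ι → ℝ) (x : ι → Bool) : ℝ :=
  ∑ i, ∑ j, L j i * deriv2 j (fun y => Ψ y i) x

end Vale.Agent.P150.Beta1
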