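import Mathlib

/-!
# The secular block of the TAP Hessian

`quad_split` rewrites a quadratic form on the span of an orthonormal family `u` in terms of the
fresh parts `ξ l = W (u l) - ∑_{p < l} ⟨u p, W (u l)⟩ u p`.  `secular_form_eq` is the exact
completion of squares behind the de Almeida–Thouless condition.
-/

namespace Vale.Agent.P150.Beta1

open Finset

variable {ι : Type*} [Fintype ι]

/-- The inner product of two vectors. -/
def dot (x y : ι → ℝ) : ℝ := ∑ i, x i * y i

lemma dot_comm (x y : ι → ℝ) : dot x y = dot y x := sum_congr rfl fun i _ => mul_comm _ _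

lemma dot_sub_sum {κ : Type*} [Fintype κ] (x y : ι → ℝ) (c : κ → ℝ) (f : κ → ι → ℝ) :
    dot x (y - ∑ l, c l • f l) = dot x y - ∑ l, c l * dot x (f l) := by
  simp only [dot, Pi.sub_apply, Finset.sum_apply, Pi.smul_apply, smul_eq_mul, mul_sub,
    sum_sub_distrib, mul_sum]
  rw [sum_comm]
  congr 1
  exact sum_congr rfl fun l _ => sum_congr rfl fun i _ => by ring

/-- The fresh part of the image of the `l`-th history vector. -/
def fresh {k : ℕ} (u w : Fin k → ι → ℝ) (l : Fin k) : ι → ℝ :=
  w l - ∑ p, (if p < l then dot (u p) (w l) else 0) • u p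

/-- A symmetric form splits into the part off the span, a linear part and a diagonal. -/
theorem quad_split {k : ℕ} (W : ι → ι → ℝ) (hW : ∀ i j, W i j = W j i) (u : Fin k → ι → ℝ)
    (a : ι → ℝ) :
    ∑ i, ∑ j, a i * W i j * a j
      = (∑ i, ∑ j, (a - ∑ l, dot (u l) a • u l) i * W i j * (a - ∑ l, dot (u l) a • u l) j)
        + 2 * ∑ l, dot (u l) a * dot a (fresh u (fun l i => ∑ j, W i j * u l j) l)
        - ∑ l, dot (u l) a ^ 2 * dot (u l) (fun i => ∑ j, W i j * u l j) := by
  set α := fun l => dot (u l) a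
  set w := fun l i => ∑ j, W i j * u l j
  set T := fun p l => dot (u p) (w l)
  have hT : ∀ p l, T p l = T l p := by
    intro p l
    simp only [T, w, dot, mul_sum]
    rw [sum_comm]
    exact sum_congr rfl fun i _ => sum_congr rfl fun j _ => by rw [hW j i]; ring
  have hq : ∀ x : ι → ℝ, ∑ i, ∑ j, x i * W i j * x j = dot x (fun i => ∑ j, W i j * x j) :=
    fun x => sum_congr rfl fun i _ => by rw [mul_sum]; exact sum_congr rfl fun j _ => by ring
  have hWb : (fun i => ∑ j, W i j * (a - ∑ l, α l • u l) j)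
      = (fun i => ∑ j, W i j * a j) - ∑ l, α l • w l := by
    funext i
    simp only [Pi.sub_apply, Finset.sum_apply, Pi.smul_apply, smul_eq_mul, mul_sub,
      sum_sub_distrib, w, mul_sum]
    rw [sum_comm]
    congr 1
    exact sum_congr rfl fun l _ => sum_congr rfl fun j _ => by ring
  have hsw : ∀ l, dot (u l) (fun i => ∑ j, W i j * a j) = dot a (w l) := by
    intro l
    simp only [dot, w, mul_sum]
    rw [sum_comm]
    exact sum_congr rfl fun i _ => sum_congr rfl fun j _ => by rw [hW j i]; ring
  have hb : dot (a - ∑ l, α l • u l) (fun i => ∑ j, W i j * (a - ∑ l, α l • u l) j)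
      = dot a (fun i => ∑ j, W i j * a j) - 2 * ∑ l, α l * dot a (w l)
        + ∑ l, ∑ p, α l * α p * T l p := by
    rw [hWb, dot_comm, dot_sub_sum, dot_comm _ a, dot_sub_sum]
    have e : ∀ l, dot ((fun i => ∑ j, W i j * a j) - ∑ p, α p • w p) (u l)
        = dot a (w l) - ∑ p, α p * T l p := by
      intro l
      rw [dot_comm, dot_sub_sum, hsw]
    simp only [e, mul_sub, sum_sub_distrib, mul_sum]
    have : ∀ l, ∑ p, α l * (α p * T l p) = ∑ p, α l * α p * T l p := fun l =>
      sum_congr rfl fun p _ => by ring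
    simp only [this]
    ring_nf
    simp only [← sum_mul]
    ring
  have hf : ∀ l, dot a (fresh u w l) = dot a (w l) - ∑ p, if p < l then α p * T p l else 0 := by
    intro l
    rw [fresh, dot_sub_sum]
    congr 1
    refine sum_congr rfl fun p _ => ?_
    split_ifs
    · simp only [α, T, dot_comm a]; ring
    · simp
  have htri : ∑ l, ∑ p, α l * α p * T l p
      = 2 * (∑ l, α l * ∑ p, if p < l then α p * T p l else 0) + ∑ l, α l ^ 2 * T l l := by
    have h3 : ∀ l p, α l * α p * T l p = (if p < l then α l * α p * T l p else 0)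
        + (if l < p then α l * α p * T l p else 0) + (if p = l then α l * α p * T l p else 0) := by
      intro l p
      rcases lt_trichotomy p l with h | h | h
      · rw [if_pos h, if_neg h.asymm, if_neg h.ne]; ring
      · subst h; simp
      · rw [if_neg h.asymm, if_pos h, if_neg h.ne']; ring
    rw [sum_congr rfl fun l _ => sum_congr rfl fun p _ => h3 l p]
    simp only [sum_add_distrib, sum_ite_eq', mem_univ, if_true]
    have hA : ∑ l, ∑ p, (if p < l then α l * α p * T l p else 0)
        = ∑ l, α l * ∑ p, if p < l then α p * T p l else 0 := by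
      refine sum_congr rfl fun l _ => ?_
      rw [mul_sum]
      refine sum_congr rfl fun p _ => ?_
      rw [hT l p]
      split_ifs <;> ring
    have hB : ∑ l, ∑ p, (if l < p then α l * α p * T l p else 0)
        = ∑ l, α l * ∑ p, if p < l then α p * T p l else 0 := by
      rw [sum_comm]
      refine sum_congr rfl fun p _ => ?_
      rw [mul_sum]
      refine sum_congr rfl fun l _ => ?_
      split_ifs <;> ring
    have hC : ∑ l, α l * α l * T l l = ∑ l, α l ^ 2 * T l l :=
      sum_congr rfl fun l _ => by ring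
    rw [hA, hB, hC]
    ring
  rw [hq, hq, hb, htri]
  simp only [hf, mul_sub, sum_sub_distrib, α, T, w]
  ring

/-- Completing the square site by site: a linear minus a diagonal quadratic on the unit sphere. -/
theorem linear_sub_quad_le {d : ι → ℝ} {μ : ℝ} (hμ : ∀ i, 0 < d i + μ) (L a : ι → ℝ)
    (ha : ∑ i, a i ^ 2 = 1) :
    2 * dot a L - ∑ i, d i * a i ^ 2 ≤ μ + ∑ i, L i ^ 2 / (d i + μ) := by
  have h : ∀ i, 2 * (a i * L i) ≤ (d i + μ) * a i ^ 2 + L i ^ 2 / (d i + μ) := by
    intro i
    have hne := (hμ i).ne'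
    have e : (d i + μ) * a i ^ 2 + L i ^ 2 / (d i + μ) - 2 * (a i * L i)
        = ((d i + μ) * a i - L i) ^ 2 / (d i + μ) := by
      field_simp
      ring
    have := div_nonneg (sq_nonneg ((d i + μ) * a i - L i)) (hμ i).le
    linarith
  have h2 := sum_le_sum (s := univ) fun i _ => h i
  have e : ∑ i, (d i + μ) * a i ^ 2 = (∑ i, d i * a i ^ 2) + μ := by
    simp only [add_mul, sum_add_distrib, ← mul_sum, ha, mul_one]
  rw [← mul_sum, sum_add_distrib, e] at h2
  simp only [dot]
  linarith

/-- The secular quadratic form: `r = ⟨a, m⟩`, `c` the planted multiplier, `ν` the free multiplier;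
`A = E v²`, `D = E m² v`, `A + D = E v`. -/
noncomputable def secularForm (τ A D r c ν : ℝ) : ℝ :=
  2 * τ * (1 - τ * A + 2 * τ * D) * r ^ 2 - 4 * τ ^ 2 * D * r * c
    - 2 * (1 - τ * A + 2 * τ * D) * r * ν + D * ν ^ 2 + 2 * τ * D * c * ν
    - τ * (1 - τ * (A + D)) * c ^ 2

/-- With the optimal multiplier the secular form is a negative definite form. -/
theorem secular_form_eq {τ A D : ℝ} (hD : D ≠ 0) (r c : ℝ) :
    secularForm τ A D r c (((1 - τ * A + 2 * τ * D) * r - τ * D * c) / D)
      = -(1 - τ * A) * (r ^ 2 * (1 - τ * A + τ * D) / D + τ * (c - r) ^ 2) := by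
  simp only [secularForm]
  field_simp
  ring

/-- Quantitative negativity of the secular form below the AT line. -/
theorem secular_form_le {τ A D : ℝ} (hτ : 0 ≤ τ) (hτA : τ * A < 1) (hD : 0 < D) (hD1 : D ≤ 1)
    (r c : ℝ) :
    secularForm τ A D r c (((1 - τ * A + 2 * τ * D) * r - τ * D * c) / D)
      ≤ -(1 - τ * A) * ((1 - τ * A) * r ^ 2 + τ * (c - r) ^ 2) := by
  rw [secular_form_eq hD.ne', neg_mul, neg_mul, neg_le_neg_iff]
  refine mul_le_mul_of_nonneg_left (add_le_add ?_ le_rfl) (by linarith)
  rw [le_div_iff₀ hD]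
  nlinarith [mul_nonneg (sq_nonneg r) (show (0:ℝ) ≤ 1 - τ * A by linarith),
    mul_nonneg (sq_nonneg r) (mul_nonneg hτ hD.le)]

end Vale.Agent.P150.Beta1
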