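import Mathlib
import Vale.Agent.P150.GaussIBP

/-!
# Sudakov–Fernique comparison, soft-max form

If the increments of the linear Gaussian family `g ↦ ⟨A i, g⟩` are dominated by those of
`g ↦ ⟨B i, g⟩`, then the expected soft maximum of the first family (with any shifts) is at most
that of the second.
-/

namespace Vale.Agent.P150.Beta1

open MeasureTheory ProbabilityTheory Finset Real Function

variable {S ι : Type*} [Fintype S] [Nonempty S] [Fintype ι] [DecidableEq ι]

/-- The linear functional with coefficients `a`. -/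
def lin (a g : ι → ℝ) : ℝ := ∑ k, a k * g k

/-- The interpolated field. -/
noncomputable def mix (A B : S → ι → ℝ) (c : S → ℝ) (θ : ℝ) (g : ι ⊕ ι → ℝ) (i : S) : ℝ :=
  cos θ * lin (A i) (fun k => g (Sum.inl k)) + sin θ * lin (B i) (fun k => g (Sum.inr k)) + c i

/-- Soft maximum `log ∑ exp (γ u)`. -/
noncomputable def lse (γ : ℝ) (u : S → ℝ) : ℝ := log (∑ i, exp (γ * u i))

/-- The Gibbs weights of the soft maximum. -/
noncomputable def soft (γ : ℝ) (u : S → ℝ) (i : S) : ℝ := exp (γ * u i) / ∑ j, exp (γ * u j)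

lemma sum_exp_pos (γ : ℝ) (u : S → ℝ) : 0 < ∑ i, exp (γ * u i) :=
  sum_pos (fun i _ => exp_pos _) univ_nonempty

lemma sum_soft (γ : ℝ) (u : S → ℝ) : ∑ i, soft γ u i = 1 := by
  simp only [soft, ← sum_div]
  exact div_self (sum_exp_pos γ u).ne'

lemma soft_nonneg (γ : ℝ) (u : S → ℝ) (i : S) : 0 ≤ soft γ u i :=
  div_nonneg (exp_pos _).le (sum_exp_pos γ u).le

lemma soft_le_one (γ : ℝ) (u : S → ℝ) (i : S) : soft γ u i ≤ 1 := by
  rw [← sum_soft γ u]
  exact single_le_sum (fun j _ => soft_nonneg γ u j) (mem_univ i)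

lemma hasDerivAt_lse {γ : ℝ} {u : ℝ → S → ℝ} {u' : S → ℝ} {s : ℝ}
    (h : ∀ i, HasDerivAt (fun s => u s i) (u' i) s) :
    HasDerivAt (fun s => lse γ (u s)) (γ * ∑ i, soft γ (u s) i * u' i) s := by
  have h1 := (HasDerivAt.fun_sum (u := univ) fun i _ => ((h i).const_mul γ).exp).log
    (sum_exp_pos γ (u s)).ne'
  refine h1.congr_deriv ?_
  simp only [soft, mul_sum, sum_div]
  exact sum_congr rfl fun i _ => by ring

lemma hasDerivAt_soft {γ : ℝ} {u : ℝ → S → ℝ} {u' : S → ℝ} {s : ℝ}
    (h : ∀ i, HasDerivAt (fun s => u s i) (u' i) s) (i : S) :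
    HasDerivAt (fun s => soft γ (u s) i)
      (γ * soft γ (u s) i * (u' i - ∑ j, soft γ (u s) j * u' j)) s := by
  have hZ := (sum_exp_pos γ (u s)).ne'
  have h1 := ((h i).const_mul γ).exp.fun_div
    (HasDerivAt.fun_sum (u := univ) fun j _ => ((h j).const_mul γ).exp) hZ
  refine h1.congr_deriv ?_
  have e : ∑ j, soft γ (u s) j * u' j = (∑ j, exp (γ * u s j) * u' j) / ∑ j, exp (γ * u s j) := by
    rw [sum_div]
    exact sum_congr rfl fun j _ => by simp only [soft]; ring
  have e2 : ∑ j, exp (γ * u s j) * (γ * u' j) = γ * ∑ j, exp (γ * u s j) * u' j := by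
    rw [mul_sum]
    exact sum_congr rfl fun j _ => by ring
  rw [e, e2, soft]
  field_simp

lemma abs_lse_le (γ : ℝ) (u : S → ℝ) :
    |lse γ u| ≤ log (Fintype.card S) + |γ| * ∑ i, |u i| := by
  set M := |γ| * ∑ i, |u i|
  have hle : ∀ i, |γ * u i| ≤ M := fun i => by
    rw [abs_mul]
    exact mul_le_mul_of_nonneg_left
      (single_le_sum (fun j _ => abs_nonneg (u j)) (mem_univ i)) (abs_nonneg γ)
  have hc : (0:ℝ) ≤ log (Fintype.card S) := log_nonneg (by exact_mod_cast Fintype.card_pos)
  have hup : lse γ u ≤ log (Fintype.card S) + M := by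
    calc log (∑ i, exp (γ * u i)) ≤ log (∑ _i : S, exp M) :=
          log_le_log (sum_exp_pos γ u)
            (sum_le_sum fun i _ => exp_le_exp.2 ((le_abs_self _).trans (hle i)))
      _ = _ := by
          rw [sum_const, card_univ, nsmul_eq_mul,
            log_mul (by exact_mod_cast Fintype.card_ne_zero) (exp_pos _).ne', log_exp]
  obtain ⟨i⟩ := ‹Nonempty S›
  have hlo : γ * u i ≤ lse γ u := by
    rw [← log_exp (γ * u i)]
    exact log_le_log (exp_pos _)
      (single_le_sum (f := fun j => exp (γ * u j)) (fun j _ => (exp_pos _).le) (mem_univ i))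
  have := abs_le.1 (hle i)
  rw [abs_le]
  constructor <;> linarith

lemma lin_update (a g : ι → ℝ) (k : ι) (s : ℝ) :
    lin a (update g k s) = lin a g + a k * (s - g k) := by
  simp only [lin]
  rw [← add_sum_erase _ _ (mem_univ k), ← add_sum_erase _ _ (mem_univ k), update_self,
    sum_congr rfl fun q hq => by rw [update_of_ne (ne_of_mem_erase hq)]]
  ring

omit [Fintype S] [Nonempty S] in
lemma mix_update_inl (A B : S → ι → ℝ) (c : S → ℝ) (θ : ℝ) (g : ι ⊕ ι → ℝ) (k : ι) (i : S) :
    HasDerivAt (fun s => mix A B c θ (update g (Sum.inl k) s) i) (cos θ * A i k)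
      (g (Sum.inl k)) := by
  have e : (fun s => mix A B c θ (update g (Sum.inl k) s) i)
      = fun s => mix A B c θ g i + cos θ * A i k * (s - g (Sum.inl k)) := by
    funext s
    have e1 : (fun q => update g (Sum.inl k) s (Sum.inl q))
        = update (fun q => g (Sum.inl q)) k s := by
      funext q
      rcases eq_or_ne q k with rfl | h
      · simp
      · simp [h]
    simp only [mix, e1, lin_update, update_of_ne Sum.inr_ne_inl]
    ring
  rw [e]
  simpa using (((hasDerivAt_id (g (Sum.inl k))).sub_const (g (Sum.inl k))).const_mul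
    (cos θ * A i k)).const_add (mix A B c θ g i)

omit [Fintype S] [Nonempty S] in
lemma mix_update_inr (A B : S → ι → ℝ) (c : S → ℝ) (θ : ℝ) (g : ι ⊕ ι → ℝ) (k : ι) (i : S) :
    HasDerivAt (fun s => mix A B c θ (update g (Sum.inr k) s) i) (sin θ * B i k)
      (g (Sum.inr k)) := by
  have e : (fun s => mix A B c θ (update g (Sum.inr k) s) i)
      = fun s => mix A B c θ g i + sin θ * B i k * (s - g (Sum.inr k)) := by
    funext s
    have e1 : (fun q => update g (Sum.inr k) s (Sum.inr q))
        = update (fun q => g (Sum.inr q)) k s := by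
      funext q
      rcases eq_or_ne q k with rfl | h
      · simp
      · simp [h]
    simp only [mix, e1, lin_update, update_of_ne Sum.inl_ne_inr]
    ring
  rw [e]
  simpa using (((hasDerivAt_id (g (Sum.inr k))).sub_const (g (Sum.inr k))).const_mul
    (sin θ * B i k)).const_add (mix A B c θ g i)

omit [DecidableEq ι] in
lemma continuous_soft_mix (γ : ℝ) (A B : S → ι → ℝ) (c : S → ℝ) (θ : ℝ) (i : S) :
    Continuous fun g => soft γ (mix A B c θ g) i := by
  unfold soft mix lin
  exact Continuous.div (by fun_prop) (by fun_prop) fun g => (sum_exp_pos γ _).ne'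

/-- One integration by parts. -/
lemma ibp_soft (γ : ℝ) (A B : S → ι → ℝ) (c : S → ℝ) (θ : ℝ) (i : S) (p : ι ⊕ ι) (a : S → ℝ)
    (hd : ∀ g j, HasDerivAt (fun s => mix A B c θ (update g p s) j) (a j) (g p)) :
    ∫ g, g p * soft γ (mix A B c θ g) i ∂gauss (ι ⊕ ι)
      = ∫ g, γ * soft γ (mix A B c θ g) i *
          (a i - ∑ j, soft γ (mix A B c θ g) j * a j) ∂gauss (ι ⊕ ι) := by
  have hF := continuous_soft_mix γ A B c θ i
  refine gauss_ibp p hF ?_ (fun g => ?_) ⟨1, 0, fun g => ?_⟩
    ⟨|γ| * (|a i| + ∑ j, |a j|), 0, fun g => ?_⟩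
  · exact (continuous_const.mul hF).mul (continuous_const.sub
      (continuous_finsetSum _ fun j _ => (continuous_soft_mix γ A B c θ j).mul continuous_const))
  · have := hasDerivAt_soft (γ := γ) (u := fun s => mix A B c θ (update g p s)) (hd g) i
    simpa using this
  · simpa [abs_of_nonneg (soft_nonneg γ _ i)] using soft_le_one γ _ i
  · rw [pow_zero, mul_one, abs_mul, abs_mul]
    refine mul_le_mul (mul_le_of_le_one_right (abs_nonneg _) ?_) ((abs_sub _ _).trans ?_)
      (abs_nonneg _) (abs_nonneg _)
    · rw [abs_of_nonneg (soft_nonneg γ _ i)]; exact soft_le_one γ _ i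
    · refine add_le_add le_rfl ((abs_sum_le_sum_abs _ _).trans (sum_le_sum fun j _ => ?_))
      rw [abs_mul, abs_of_nonneg (soft_nonneg γ _ j)]
      exact mul_le_of_le_one_left (abs_nonneg _) (soft_le_one γ _ j)

/-- Sudakov–Fernique comparison for the soft maximum. -/
theorem lse_comparison (γ : ℝ) (A B : S → ι → ℝ) (c : S → ℝ)
    (h : ∀ i j, ∑ k, (A i k - A j k) ^ 2 ≤ ∑ k, (B i k - B j k) ^ 2) :
    ∫ g, lse γ (fun i => lin (A i) g + c i) ∂gauss ι
      ≤ ∫ g, lse γ (fun i => lin (B i) g + c i) ∂gauss ι := by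
  set μ := gauss (ι ⊕ ι)
  set F := fun θ g => lse γ (mix A B c θ g)
  set u' := fun θ (g : ι ⊕ ι → ℝ) i => -sin θ * lin (A i) (fun k => g (Sum.inl k))
    + cos θ * lin (B i) (fun k => g (Sum.inr k))
  set F' := fun θ g => γ * ∑ i, soft γ (mix A B c θ g) i * u' θ g i
  set bd := fun g : ι ⊕ ι → ℝ =>
    |γ| * ∑ i, (|lin (A i) (fun k => g (Sum.inl k))| + |lin (B i) (fun k => g (Sum.inr k))|)
  have ipw : ∀ p : ι ⊕ ι, Integrable (fun g => g p) μ := fun p =>
    PolyGrowth.integrable ⟨1, 1, fun g => by
      have := single_le_sum (f := fun q => |g q|) (fun q _ => abs_nonneg _) (mem_univ p)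
      rw [pow_one, one_mul]; linarith⟩ (continuous_apply p)
  have ia : ∀ a : ι → ℝ, Integrable (fun g => lin a fun k => g (Sum.inl k)) μ := fun a => by
    simpa only [lin] using integrable_finsetSum _ fun k _ => (ipw (Sum.inl k)).const_mul (a k)
  have ib : ∀ a : ι → ℝ, Integrable (fun g => lin a fun k => g (Sum.inr k)) μ := fun a => by
    simpa only [lin] using integrable_finsetSum _ fun k _ => (ipw (Sum.inr k)).const_mul (a k)
  have hbd : Integrable bd μ :=
    (integrable_finsetSum _ fun i _ => (ia (A i)).abs.add (ib (B i)).abs).const_mul |γ|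
  have hcont : ∀ θ, Continuous (F θ) := fun θ => by
    simp only [F]; unfold lse mix lin
    exact Continuous.log (by fun_prop) fun g => (sum_exp_pos γ _).ne'
  have hFint : ∀ θ, Integrable (F θ) μ := fun θ => by
    have hd : Integrable (fun g => log (Fintype.card S) + (|γ| * ∑ i, |c i| + bd g)) μ :=
      (integrable_const _).add ((integrable_const _).add hbd)
    refine hd.mono' (hcont θ).aestronglyMeasurable (ae_of_all _ fun g => ?_)
    rw [norm_eq_abs]
    refine (abs_lse_le γ _).trans (add_le_add le_rfl ?_)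
    simp only [bd, ← mul_add, ← sum_add_distrib]
    refine mul_le_mul_of_nonneg_left (sum_le_sum fun i _ => ?_) (abs_nonneg _)
    simp only [mix]
    refine (abs_add_three _ _ _).trans ?_
    rw [abs_mul, abs_mul]
    have := mul_le_of_le_one_left (abs_nonneg (lin (A i) fun k => g (Sum.inl k)))
      (abs_cos_le_one θ)
    have := mul_le_of_le_one_left (abs_nonneg (lin (B i) fun k => g (Sum.inr k)))
      (abs_sin_le_one θ)
    linarith
  have hF'bd : ∀ θ g, |F' θ g| ≤ bd g := fun θ g => by
    simp only [F', bd]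
    rw [abs_mul]
    refine mul_le_mul_of_nonneg_left ((abs_sum_le_sum_abs _ _).trans
      (sum_le_sum fun i _ => ?_)) (abs_nonneg _)
    rw [abs_mul, abs_of_nonneg (soft_nonneg γ _ i)]
    refine (mul_le_of_le_one_left (abs_nonneg _) (soft_le_one γ _ i)).trans ?_
    refine (abs_add_le _ _).trans (add_le_add ?_ ?_)
    · rw [abs_mul, abs_neg]
      exact mul_le_of_le_one_left (abs_nonneg _) (abs_sin_le_one θ)
    · rw [abs_mul]
      exact mul_le_of_le_one_left (abs_nonneg _) (abs_cos_le_one θ)
  have hdF : ∀ θ g, HasDerivAt (fun s => F s g) (F' θ g) θ := fun θ g => by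
    refine hasDerivAt_lse (u := fun s => mix A B c s g) fun i => ?_
    simp only [mix, u']
    exact (((hasDerivAt_cos θ).mul_const _).add ((hasDerivAt_sin θ).mul_const _)).add_const _
  have hF'cont : ∀ θ, Continuous (F' θ) := fun θ => by
    refine continuous_const.mul (continuous_finsetSum _ fun i _ =>
      (continuous_soft_mix γ A B c θ i).mul ?_)
    simp only [u', lin]
    fun_prop
  have hphi : ∀ θ, HasDerivAt (fun s => ∫ g, F s g ∂μ) (∫ g, F' θ g ∂μ) θ := fun θ =>
    (hasDerivAt_integral_of_dominated_loc_of_deriv_le (F := F) (F' := F') (s := Set.univ)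
      Filter.univ_mem (Filter.Eventually.of_forall fun s => (hcont s).aestronglyMeasurable)
      (hFint θ) (hF'cont θ).aestronglyMeasurable
      (ae_of_all _ fun g s _ => hF'bd s g) hbd (ae_of_all _ fun g s _ => hdF s g)).2
  set p := fun θ g i => soft γ (mix A B c θ g) i
  have hpc : ∀ θ i, Continuous fun g => p θ g i := fun θ i => continuous_soft_mix γ A B c θ i
  have hpb : ∀ θ g i, ‖p θ g i‖ ≤ 1 := fun θ g i => by
    rw [norm_eq_abs, abs_of_nonneg (soft_nonneg γ _ i)]; exact soft_le_one γ _ i
  have hder : ∀ θ, 0 ≤ sin θ → 0 ≤ cos θ → 0 ≤ ∫ g, F' θ g ∂μ := by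
    intro θ hs hc
    have ip : ∀ i (q : ι ⊕ ι), Integrable (fun g => g q * p θ g i) μ := fun i q =>
      (ipw q).mul_bdd (hpc θ i).aestronglyMeasurable (ae_of_all _ fun g => hpb θ g i)
    have e1 : ∫ g, F' θ g ∂μ = γ * ∑ i, ∑ k, (-sin θ * A i k * ∫ g, g (Sum.inl k) * p θ g i ∂μ
        + cos θ * B i k * ∫ g, g (Sum.inr k) * p θ g i ∂μ) := by
      have h2 : ∀ g, F' θ g = γ * ∑ i, ∑ k, (-sin θ * A i k * (g (Sum.inl k) * p θ g i)
          + cos θ * B i k * (g (Sum.inr k) * p θ g i)) := fun g => by
        simp only [F', u', lin, p, mul_sum, sum_add_distrib, mul_add]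
        congr 1 <;> exact sum_congr rfl fun i _ => sum_congr rfl fun k _ => by ring
      simp only [h2]
      rw [integral_const_mul]
      congr 1
      have hi : ∀ i k, Integrable (fun g => -sin θ * A i k * (g (Sum.inl k) * p θ g i)
          + cos θ * B i k * (g (Sum.inr k) * p θ g i)) μ := fun i k =>
        ((ip i _).const_mul _).add ((ip i _).const_mul _)
      rw [integral_finsetSum _ fun i _ => integrable_finsetSum _ fun k _ => hi i k]
      refine sum_congr rfl fun i _ => ?_
      rw [integral_finsetSum _ fun k _ => hi i k]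
      refine sum_congr rfl fun k _ => ?_
      rw [integral_add ((ip i _).const_mul _) ((ip i _).const_mul _), integral_const_mul,
        integral_const_mul]
    have e2 : ∀ i k, ∫ g, g (Sum.inl k) * p θ g i ∂μ = γ * cos θ *
        ∫ g, p θ g i * (A i k - ∑ j, p θ g j * A j k) ∂μ := fun i k => by
      rw [ibp_soft γ A B c θ i _ (fun j => cos θ * A j k)
        (fun g j => mix_update_inl A B c θ g k j), ← integral_const_mul]
      refine integral_congr_ae (ae_of_all _ fun g => ?_)
      simp only [p, mul_sub, mul_sum]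
      congr 1
      · ring
      · exact sum_congr rfl fun j _ => by ring
    have e3 : ∀ i k, ∫ g, g (Sum.inr k) * p θ g i ∂μ = γ * sin θ *
        ∫ g, p θ g i * (B i k - ∑ j, p θ g j * B j k) ∂μ := fun i k => by
      rw [ibp_soft γ A B c θ i _ (fun j => sin θ * B j k)
        (fun g j => mix_update_inr A B c θ g k j), ← integral_const_mul]
      refine integral_congr_ae (ae_of_all _ fun g => ?_)
      simp only [p, mul_sub, mul_sum]
      congr 1
      · ring
      · exact sum_congr rfl fun j _ => by ring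
    set T := fun (C : S → ι → ℝ) g i k => C i k * (p θ g i * (C i k - ∑ j, p θ g j * C j k))
    have iq : ∀ (C : S → ι → ℝ) i k, Integrable (fun g => T C g i k) μ := fun C i k =>
      PolyGrowth.integrable ⟨|C i k| * (|C i k| + ∑ j, |C j k|), 0, fun g => by
        simp only [T]
        rw [pow_zero, mul_one, abs_mul]
        refine mul_le_mul_of_nonneg_left ?_ (abs_nonneg _)
        rw [abs_mul]
        refine (mul_le_of_le_one_left (abs_nonneg _) (hpb θ g i)).trans
          ((abs_sub _ _).trans (add_le_add le_rfl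
            ((abs_sum_le_sum_abs _ _).trans (sum_le_sum fun j _ => ?_))))
        rw [abs_mul]
        exact mul_le_of_le_one_left (abs_nonneg _) (hpb θ g j)⟩
        (continuous_const.mul ((hpc θ i).mul (continuous_const.sub
          (continuous_finsetSum _ fun j _ => (hpc θ j).mul continuous_const))))
    have e4 : ∫ g, F' θ g ∂μ
        = γ ^ 2 * (sin θ * cos θ) * ∫ g, ∑ i, ∑ k, (T B g i k - T A g i k) ∂μ := by
      have hi : ∀ i k, Integrable (fun g => T B g i k - T A g i k) μ := fun i k =>
        (iq B i k).sub (iq A i k)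
      rw [e1, integral_finsetSum _ (fun i _ => integrable_finsetSum _ fun k _ => hi i k),
        mul_sum, mul_sum]
      refine sum_congr rfl fun i _ => ?_
      rw [integral_finsetSum _ (fun k _ => hi i k), mul_sum, mul_sum]
      refine sum_congr rfl fun k _ => ?_
      rw [integral_sub (iq B i k) (iq A i k), e2 i k, e3 i k]
      simp only [T, integral_const_mul]
      ring
    rw [e4]
    refine mul_nonneg (mul_nonneg (sq_nonneg γ) (mul_nonneg hs hc))
      (integral_nonneg fun g => ?_)
    have key : ∀ C : S → ι → ℝ, 2 * ∑ i, ∑ k, T C g i k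
        = ∑ i, ∑ j, p θ g i * p θ g j * ∑ k, (C i k - C j k) ^ 2 := by
      intro C
      have hk : ∀ k, ∑ i, ∑ j, p θ g i * p θ g j * (C i k - C j k) ^ 2
          = 2 * ∑ i, T C g i k := by
        intro k
        have : ∀ i j, p θ g i * p θ g j * (C i k - C j k) ^ 2
            = p θ g i * C i k ^ 2 * p θ g j + p θ g i * (p θ g j * C j k ^ 2)
              - 2 * (p θ g i * C i k * (p θ g j * C j k)) := fun i j => by ring
        simp only [this, sum_sub_distrib, sum_add_distrib, ← mul_sum, ← sum_mul]
        have hs1 : ∑ j, p θ g j = 1 := sum_soft γ _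
        simp only [hs1, T, mul_one, one_mul, mul_sub, sum_sub_distrib]
        have a1 : ∑ i, C i k * (p θ g i * C i k) = ∑ i, p θ g i * C i k ^ 2 :=
          sum_congr rfl fun i _ => by ring
        have a2 : ∑ i, C i k * (p θ g i * ∑ j, p θ g j * C j k)
            = (∑ i, p θ g i * C i k) * ∑ j, p θ g j * C j k := by
          rw [sum_mul]; exact sum_congr rfl fun i _ => by ring
        rw [a1, a2]
        ring
      rw [sum_comm, mul_sum, ← sum_congr rfl fun k _ => hk k, sum_comm]
      refine sum_congr rfl fun i _ => ?_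
      rw [sum_comm]
      exact sum_congr rfl fun j _ => (mul_sum _ _ _).symm
    have hle : ∑ i, ∑ j, p θ g i * p θ g j * ∑ k, (A i k - A j k) ^ 2
        ≤ ∑ i, ∑ j, p θ g i * p θ g j * ∑ k, (B i k - B j k) ^ 2 :=
      sum_le_sum fun i _ => sum_le_sum fun j _ =>
        mul_le_mul_of_nonneg_left (h i j) (mul_nonneg (soft_nonneg γ _ i) (soft_nonneg γ _ j))
    have kA := key A
    have kB := key B
    simp only [sum_sub_distrib]
    show (0:ℝ) ≤ _
    linarith
  have hmono : MonotoneOn (fun s => ∫ g, F s g ∂μ) (Set.Icc 0 (π / 2)) :=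
    monotoneOn_of_hasDerivWithinAt_nonneg (convex_Icc _ _)
      (fun s _ => (hphi s).continuousAt.continuousWithinAt)
      (fun s _ => (hphi s).hasDerivWithinAt) fun s hs => by
        rw [interior_Icc] at hs
        exact hder s (sin_nonneg_of_nonneg_of_le_pi hs.1.le (by linarith [hs.2, pi_pos]))
          (cos_nonneg_of_mem_Icc ⟨by linarith [hs.1, pi_pos], hs.2.le⟩)
  have hfin := hmono (Set.left_mem_Icc.2 (by positivity)) (Set.right_mem_Icc.2 (by positivity))
    (by positivity : (0:ℝ) ≤ π / 2)
  have marg : ∀ (φ : ι → ι ⊕ ι) (C : S → ι → ℝ), Injective φ →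
      ∫ g, lse γ (fun i => lin (C i) (fun k => g (φ k)) + c i) ∂μ
        = ∫ g, lse γ (fun i => lin (C i) g + c i) ∂gauss ι := by
    intro φ C hφ
    rw [← gauss_map_comp φ hφ, integral_map (Continuous.aemeasurable (by fun_prop))]
    refine Continuous.aestronglyMeasurable ?_
    unfold lse lin
    exact Continuous.log (by fun_prop) fun g => (sum_exp_pos γ _).ne'
  have el : mix A B c 0 = fun g i => lin (A i) (fun k => g (Sum.inl k)) + c i := by
    funext g i; simp [mix]
  have er : mix A B c (π / 2) = fun g i => lin (B i) (fun k => g (Sum.inr k)) + c i := by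
    funext g i; simp [mix]
  simp only [F, el, er] at hfin
  rwa [marg Sum.inl A Sum.inl_injective, marg Sum.inr B Sum.inr_injective] at hfin

/-- The maximum of finitely many values is within `log (card S) / γ` of the soft maximum. -/
lemma lse_sandwich {γ : ℝ} (hγ : 0 < γ) (u : S → ℝ) :
    γ * univ.sup' univ_nonempty u ≤ lse γ u ∧
      lse γ u ≤ log (Fintype.card S) + γ * univ.sup' univ_nonempty u := by
  obtain ⟨i, -, hi⟩ := exists_mem_eq_sup' univ_nonempty u
  constructor
  · rw [hi, ← log_exp (γ * u i)]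
    exact log_le_log (exp_pos _)
      (single_le_sum (f := fun j => exp (γ * u j)) (fun j _ => (exp_pos _).le) (mem_univ i))
  · calc log (∑ j, exp (γ * u j)) ≤ log (∑ _j : S, exp (γ * univ.sup' univ_nonempty u)) :=
          log_le_log (sum_exp_pos γ u) (sum_le_sum fun j _ =>
            exp_le_exp.2 (mul_le_mul_of_nonneg_left (le_sup' u (mem_univ j)) hγ.le))
      _ = _ := by
          rw [sum_const, card_univ, nsmul_eq_mul,
            log_mul (by exact_mod_cast Fintype.card_ne_zero) (exp_pos _).ne', log_exp]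

/-- A linear Gaussian soft maximum is integrable. -/
lemma integrable_lse_lin (γ : ℝ) (A : S → ι → ℝ) (c : S → ℝ) :
    Integrable (fun g => lse γ fun i => lin (A i) g + c i) (gauss ι) := by
  refine PolyGrowth.integrable ⟨log (Fintype.card S) + |γ| * ∑ i, ((∑ k, |A i k|) + |c i|), 1,
    fun g => ?_⟩ ?_
  · have h1 : (1:ℝ) ≤ 1 + ∑ q, |g q| :=
      le_add_of_nonneg_right (sum_nonneg fun q _ => abs_nonneg _)
    have hc : (0:ℝ) ≤ log (Fintype.card S) := log_nonneg (by exact_mod_cast Fintype.card_pos)
    refine (abs_lse_le γ _).trans ?_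
    rw [pow_one, add_mul, mul_assoc]
    refine add_le_add (le_mul_of_one_le_right hc h1)
      (mul_le_mul_of_nonneg_left ?_ (abs_nonneg _))
    rw [sum_mul]
    refine sum_le_sum fun i _ => (abs_add_le _ _).trans ?_
    rw [add_mul]
    refine add_le_add ?_ (le_mul_of_one_le_right (abs_nonneg _) h1)
    rw [sum_mul]
    refine (abs_sum_le_sum_abs _ _).trans (sum_le_sum fun k _ => ?_)
    rw [abs_mul]
    refine mul_le_mul_of_nonneg_left ?_ (abs_nonneg _)
    have := single_le_sum (f := fun q => |g q|) (fun q _ => abs_nonneg _) (mem_univ k)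
    linarith
  · unfold lse lin
    exact Continuous.log (by fun_prop) fun g => (sum_exp_pos γ _).ne'

/-- A finite supremum of shifted linear Gaussian variables is integrable. -/
lemma integrable_sup_lin (C : S → ι → ℝ) (c : S → ℝ) :
    Integrable (fun g => univ.sup' univ_nonempty fun i => lin (C i) g + c i) (gauss ι) := by
  refine (((integrable_lse_lin 1 C c).abs.add (integrable_const
    (log (Fintype.card S)))).mono' (Continuous.aestronglyMeasurable ?_)
      (ae_of_all _ fun g => ?_))
  · exact Continuous.finset_sup'_apply univ_nonempty fun i _ => by unfold lin; fun_prop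
  · obtain ⟨h1, h2⟩ := lse_sandwich one_pos fun i => lin (C i) g + c i
    have hc : (0:ℝ) ≤ log (Fintype.card S) := log_nonneg (by exact_mod_cast Fintype.card_pos)
    simp only [one_mul, norm_eq_abs, Pi.add_apply] at h1 h2 ⊢
    rw [abs_le]
    constructor <;> linarith [le_abs_self (lse 1 fun i => lin (C i) g + c i),
      neg_abs_le (lse 1 fun i => lin (C i) g + c i)]

/-- Sudakov–Fernique for finitely many shifted linear Gaussian variables. -/
theorem sup_comparison (A B : S → ι → ℝ) (c : S → ℝ)
    (h : ∀ i j, ∑ k, (A i k - A j k) ^ 2 ≤ ∑ k, (B i k - B j k) ^ 2) :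
    ∫ g, univ.sup' univ_nonempty (fun i => lin (A i) g + c i) ∂gauss ι
      ≤ ∫ g, univ.sup' univ_nonempty (fun i => lin (B i) g + c i) ∂gauss ι := by
  have hmax := fun C : S → ι → ℝ => integrable_sup_lin C c
  have key : ∀ γ : ℝ, 0 < γ →
      ∫ g, univ.sup' univ_nonempty (fun i => lin (A i) g + c i) ∂gauss ι
        ≤ log (Fintype.card S) / γ
          + ∫ g, univ.sup' univ_nonempty (fun i => lin (B i) g + c i) ∂gauss ι := by
    intro γ hγ
    have e1 : γ * ∫ g, univ.sup' univ_nonempty (fun i => lin (A i) g + c i) ∂gauss ι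
        ≤ ∫ g, lse γ (fun i => lin (A i) g + c i) ∂gauss ι := by
      rw [← integral_const_mul]
      exact integral_mono ((hmax A).const_mul γ) (integrable_lse_lin γ A c)
        fun g => (lse_sandwich hγ _).1
    have e2 : ∫ g, lse γ (fun i => lin (B i) g + c i) ∂gauss ι
        ≤ log (Fintype.card S)
          + γ * ∫ g, univ.sup' univ_nonempty (fun i => lin (B i) g + c i) ∂gauss ι := by
      refine (integral_mono (integrable_lse_lin γ B c)
        ((integrable_const _).add ((hmax B).const_mul γ))
        fun g => (lse_sandwich hγ _).2).trans (le_of_eq ?_)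
      rw [integral_add' (integrable_const _) ((hmax B).const_mul γ), integral_const_mul]
      simp
    have e3 := lse_comparison γ A B c h
    rw [div_add' _ _ _ hγ.ne', le_div_iff₀ hγ]
    linarith
  refine le_of_forall_pos_le_add fun ε hε => ?_
  have hc : (0:ℝ) ≤ log (Fintype.card S) := log_nonneg (by exact_mod_cast Fintype.card_pos)
  have hk := key ((log (Fintype.card S) + 1) / ε) (by positivity)
  have : log (Fintype.card S) / ((log (Fintype.card S) + 1) / ε) ≤ ε := by
    rw [div_div_eq_mul_div, div_le_iff₀ (by positivity)]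
    nlinarith
  linarith

end Vale.Agent.P150.Beta1
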