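import Vale.Agent.P150.Beta1.Defs

/-!
# Good fields

A field is good when it has a TAP point with the edge, robust to a few sites, and when Gibbs
samples have iterates near that point. In the paper `k = K + 1`: `M_k = ampA (K + 2)`,
`a = z_{k-1} = ampZ (K + 1)`.
-/

namespace Vale.Agent.P150.Beta1

open Finset Real

variable {ι : Type*} [Fintype ι]

/-- The iterates `M_{k-2}, M_{k-1}, M_k` (`k = K + 1`) are within `ρ √n` of `m`. -/
def Near (β : ℝ) (J : ι → ι → ℝ) (y x m : ι → ℝ) (K : ℕ) (ρ : ℝ) : Prop :=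
  ∀ j, K ≤ j → j ≤ K + 2 → ∑ i, (ampA β J y x j i - m i) ^ 2 ≤ ρ ^ 2 * Fintype.card ι

/-- TAP point with a robust edge: the quadratic form of `J - B + 2 β² m mᵀ / n` stays below that of
`1/w` for every `w` at most `gmax` exceeding the one-site variances by more than `η` on at most
`η n` sites. -/
def TapEdge (β κ η gmax : ℝ) (J : ι → ι → ℝ) (y γ : ι → ℝ) : Prop :=
  (∀ i, γ i + onsager β (tanhv γ) * tanh (γ i) = y i + act J (tanhv γ) i) ∧
  ∀ w a : ι → ℝ, (∀ i, 0 < w i ∧ w i ≤ gmax) →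
    (Set.ncard {i | 1 - tanh (γ i) ^ 2 + η < w i} : ℝ) ≤ η * Fintype.card ι →
      (∑ i, a i * act J a i) - onsager β (tanhv γ) * (∑ i, a i ^ 2)
          + 2 * β ^ 2 * (∑ i, tanh (γ i) * a i) ^ 2 / Fintype.card ι + κ * ∑ i, a i ^ 2
        ≤ ∑ i, a i ^ 2 / w i

variable [DecidableEq ι]

open scoped Classical in
/-- Good field: a TAP point with an edge, and Gibbs mass of far configurations at most `ε`. -/
def GoodField (β κ η gmax ρ : ℝ) (K : ℕ) (ε : ℝ) (J : ι → ι → ℝ) (y : ι → ℝ) : Prop :=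
  ∃ γ : ι → ℝ, TapEdge β κ η gmax J y γ ∧
    mean (gibbs J y)
      (fun x => if Near β J y (spins x) (tanhv γ) K ρ then (0 : ℝ) else 1) ≤ ε

end Vale.Agent.P150.Beta1
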