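import Mathlib
import Vale.Agent.P150.Beta1.Secular

/-!
# The secular edge from finitely many site averages

Input: `k` fresh vectors `Z l`, one resampled vector `g`, the iterate `m` with `v = 1 - m²`, and
approximate values of their `v`-weighted averages (state evolution). Output: the linearised
TAP Hessian bound is negative by a fixed margin, below the AT line.
-/

namespace Vale.Agent.P150.Beta1

open Finset Real

variable {ι : Type*} [Fintype ι]

/-- Weighted average. -/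
noncomputable def wavg (v x : ι → ℝ) : ℝ := (∑ i, v i * x i) / Fintype.card ι

/-- State-evolution values of the weighted averages, up to `η`. -/
structure SiteStats {k : ℕ} (v m g : ι → ℝ) (Z : Fin k → ι → ℝ) (ρ : Fin k → ℝ)
    (A D η : ℝ) : Prop where
  hv : ∀ i, v i = 1 - m i ^ 2
  hA : wavg v v = A
  hD : wavg v (fun i => m i ^ 2) = D
  gg : |wavg v (fun i => g i ^ 2) - (A + D)| ≤ η
  gZ : ∀ l, |wavg v (fun i => g i * Z l i)| ≤ η
  g1 : |wavg v g| ≤ η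
  gm : |wavg v (fun i => g i * m i)| ≤ η
  m1 : |wavg v m - D| ≤ η
  ZZ : ∀ l p, |wavg v (fun i => Z l i * Z p i)
    - ((if l = p then A + D else 0) + ρ l * ρ p * (-2 * (A - 2 * D)))| ≤ η
  Z1 : ∀ l, |wavg v (Z l) - ρ l * (-2 * D)| ≤ η
  Zm : ∀ l, |wavg v (fun i => Z l i * m i) - ρ l * (A - 2 * D)| ≤ η

/-- The linearised site field. -/
noncomputable def siteField {k : ℕ} (τ s : ℝ) (α : Fin k → ℝ) (c ν : ℝ) (m g : ι → ℝ)
    (Z : Fin k → ι → ℝ) (i : ι) : ℝ :=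
  √τ * s * g i + √τ * ∑ l, α l * Z l i + τ * c + ν * m i

lemma wavg_add (v x y : ι → ℝ) : wavg v (fun i => x i + y i) = wavg v x + wavg v y := by
  simp only [wavg, mul_add, sum_add_distrib, add_div]

lemma wavg_mul (v x : ι → ℝ) (a : ℝ) : wavg v (fun i => a * x i) = a * wavg v x := by
  simp only [wavg, mul_left_comm (v _) a, ← mul_sum, mul_div_assoc]

lemma wavg_sum {κ : Type*} [Fintype κ] (v : ι → ℝ) (x : κ → ι → ℝ) :
    wavg v (fun i => ∑ l, x l i) = ∑ l, wavg v (x l) := by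
  simp only [wavg, mul_sum, ← sum_div]
  rw [sum_comm]

lemma wavg_one [Nonempty ι] {k : ℕ} {v m g : ι → ℝ} {Z : Fin k → ι → ℝ} {ρ : Fin k → ℝ}
    {A D η : ℝ} (S : SiteStats v m g Z ρ A D η) : wavg v (fun _ => (1:ℝ)) = A + D := by
  rw [← S.hA, ← S.hD]
  simp only [wavg, ← add_div, ← sum_add_distrib]
  congr 1
  exact sum_congr rfl fun i _ => by rw [S.hv i]; ring

lemma abs_mul_sub_le {a x y η : ℝ} (h : |x - y| ≤ η) : a * x ≤ a * y + |a| * η := by
  have h1 : a * (x - y) ≤ |a| * |x - y| := (le_abs_self _).trans (abs_mul a (x - y)).le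
  have h2 := mul_le_mul_of_nonneg_left h (abs_nonneg a)
  linarith

/-- The weighted square of the site field is bounded by its state-evolution value. -/
theorem wavg_siteField_le [Nonempty ι] {k : ℕ} {v m g : ι → ℝ} {Z : Fin k → ι → ℝ}
    {ρ : Fin k → ℝ} {A D η τ s c ν M : ℝ} {α : Fin k → ℝ} (S : SiteStats v m g Z ρ A D η)
    (hτ : 0 ≤ τ) (hτ1 : τ ≤ 1) (hη : 0 ≤ η) (hM : 1 ≤ M) (hs : |s| ≤ 1) (hc : |c| ≤ M)
    (hν : |ν| ≤ M) (hα : ∀ l, |α l| ≤ 1) :
    wavg v (fun i => siteField τ s α c ν m g Z i ^ 2)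
      ≤ τ * (A + D) * (s ^ 2 + ∑ l, α l ^ 2)
        + τ * (-2 * (A - 2 * D)) * (∑ l, α l * ρ l) ^ 2
        + 2 * (√τ * τ) * c * (-2 * D) * ∑ l, α l * ρ l
        + 2 * √τ * ν * (A - 2 * D) * ∑ l, α l * ρ l
        + τ ^ 2 * c ^ 2 * (A + D) + 2 * τ * c * ν * D + ν ^ 2 * D
        + 3 * (k + 3) ^ 2 * M ^ 2 * η := by
  have hst : √τ * √τ = τ := mul_self_sqrt hτ
  have hs1 : √τ ≤ 1 := sqrt_le_one.2 hτ1
  have hs0 : 0 ≤ √τ := sqrt_nonneg τ
  have e : ∀ i, siteField τ s α c ν m g Z i ^ 2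
      = τ * s ^ 2 * g i ^ 2 + (∑ l, 2 * τ * s * α l * (g i * Z l i))
        + 2 * (√τ * τ) * s * c * g i + 2 * √τ * s * ν * (g i * m i)
        + (∑ l, ∑ p, τ * α l * α p * (Z l i * Z p i))
        + (∑ l, 2 * (√τ * τ) * c * α l * Z l i)
        + (∑ l, 2 * √τ * ν * α l * (Z l i * m i))
        + τ ^ 2 * c ^ 2 * 1 + 2 * τ * c * ν * m i + ν ^ 2 * m i ^ 2 := by
    intro i
    have e1 : ∑ l, ∑ p, τ * α l * α p * (Z l i * Z p i) = τ * (∑ l, α l * Z l i) ^ 2 := by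
      rw [sq (∑ l, _), sum_mul_sum, mul_sum]
      exact sum_congr rfl fun l _ => by rw [mul_sum]; exact sum_congr rfl fun p _ => by ring
    have e2 : ∑ l, 2 * τ * s * α l * (g i * Z l i) = 2 * τ * s * g i * ∑ l, α l * Z l i := by
      rw [mul_sum]; exact sum_congr rfl fun l _ => by ring
    have e3 : ∑ l, 2 * (√τ * τ) * c * α l * Z l i = 2 * (√τ * τ) * c * ∑ l, α l * Z l i := by
      rw [mul_sum]; exact sum_congr rfl fun l _ => by ring
    have e4 : ∑ l, 2 * √τ * ν * α l * (Z l i * m i) = 2 * √τ * ν * m i * ∑ l, α l * Z l i := by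
      rw [mul_sum]; exact sum_congr rfl fun l _ => by ring
    rw [e1, e2, e3, e4, siteField]
    linear_combination ((s * g i + ∑ l, α l * Z l i) ^ 2) * hst
  simp only [e, wavg_add, wavg_mul, wavg_sum, wavg_one S, S.hD]
  have b1 : |τ * s ^ 2| ≤ M ^ 2 := by
    rw [abs_mul, abs_of_nonneg hτ, abs_pow]
    calc τ * |s| ^ 2 ≤ 1 * 1 ^ 2 := by gcongr
      _ ≤ _ := by nlinarith
  have b2 : ∀ a b : ℝ, |a| ≤ M → |b| ≤ M → |a * b| ≤ M ^ 2 := fun a b ha hb => by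
    rw [abs_mul, sq]; exact mul_le_mul ha hb (abs_nonneg b) (by linarith)
  have hsM : |s| ≤ M := hs.trans hM
  have hαM : ∀ l, |α l| ≤ M := fun l => (hα l).trans hM
  have bt : ∀ (t x : ℝ), 0 ≤ t → t ≤ 1 → |x| ≤ M ^ 2 → |t * x| ≤ M ^ 2 := fun t x h0 h1 hx => by
    rw [abs_mul, abs_of_nonneg h0]
    exact (mul_le_of_le_one_left (abs_nonneg x) h1).trans hx
  have two : ∀ x : ℝ, |x| ≤ M ^ 2 → |2 * x| ≤ 2 * M ^ 2 := fun x hx => by
    rw [abs_mul, abs_two]; linarith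
  have hττ : √τ * τ ≤ 1 := by nlinarith
  have hττ0 : 0 ≤ √τ * τ := mul_nonneg hs0 hτ
  have T1 : τ * s ^ 2 * wavg v (fun i => g i ^ 2) ≤ τ * s ^ 2 * (A + D) + M ^ 2 * η :=
    (abs_mul_sub_le S.gg).trans (add_le_add le_rfl (mul_le_mul_of_nonneg_right b1 hη))
  have T2 : ∀ l, 2 * τ * s * α l * wavg v (fun i => g i * Z l i) ≤ 2 * M ^ 2 * η := fun l => by
    have h := abs_mul_sub_le (a := 2 * τ * s * α l) (y := (0:ℝ)) (by simpa using S.gZ l)
    rw [mul_zero, zero_add] at h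
    refine h.trans (mul_le_mul_of_nonneg_right ?_ hη)
    rw [show 2 * τ * s * α l = 2 * (τ * (s * α l)) by ring]
    exact two _ (bt _ _ hτ hτ1 (b2 _ _ hsM (hαM l)))
  have T3 : 2 * (√τ * τ) * s * c * wavg v g ≤ 2 * M ^ 2 * η := by
    have h := abs_mul_sub_le (a := 2 * (√τ * τ) * s * c) (y := (0:ℝ)) (by simpa using S.g1)
    rw [mul_zero, zero_add] at h
    refine h.trans (mul_le_mul_of_nonneg_right ?_ hη)
    rw [show 2 * (√τ * τ) * s * c = 2 * ((√τ * τ) * (s * c)) by ring]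
    exact two _ (bt _ _ hττ0 hττ (b2 _ _ hsM hc))
  have T4 : 2 * √τ * s * ν * wavg v (fun i => g i * m i) ≤ 2 * M ^ 2 * η := by
    have h := abs_mul_sub_le (a := 2 * √τ * s * ν) (y := (0:ℝ)) (by simpa using S.gm)
    rw [mul_zero, zero_add] at h
    refine h.trans (mul_le_mul_of_nonneg_right ?_ hη)
    rw [show 2 * √τ * s * ν = 2 * (√τ * (s * ν)) by ring]
    exact two _ (bt _ _ hs0 hs1 (b2 _ _ hsM hν))
  have T5 : ∀ l p, τ * α l * α p * wavg v (fun i => Z l i * Z p i)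
      ≤ τ * α l * α p * ((if l = p then A + D else 0) + ρ l * ρ p * (-2 * (A - 2 * D)))
        + M ^ 2 * η := fun l p => by
    refine (abs_mul_sub_le (S.ZZ l p)).trans
      (add_le_add le_rfl (mul_le_mul_of_nonneg_right ?_ hη))
    rw [mul_assoc]
    exact bt _ _ hτ hτ1 (b2 _ _ (hαM l) (hαM p))
  have T6 : ∀ l, 2 * (√τ * τ) * c * α l * wavg v (Z l)
      ≤ 2 * (√τ * τ) * c * α l * (ρ l * (-2 * D)) + 2 * M ^ 2 * η := fun l => by
    refine (abs_mul_sub_le (S.Z1 l)).trans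
      (add_le_add le_rfl (mul_le_mul_of_nonneg_right ?_ hη))
    rw [show 2 * (√τ * τ) * c * α l = 2 * ((√τ * τ) * (c * α l)) by ring]
    exact two _ (bt _ _ hττ0 hττ (b2 _ _ hc (hαM l)))
  have T7 : ∀ l, 2 * √τ * ν * α l * wavg v (fun i => Z l i * m i)
      ≤ 2 * √τ * ν * α l * (ρ l * (A - 2 * D)) + 2 * M ^ 2 * η := fun l => by
    refine (abs_mul_sub_le (S.Zm l)).trans
      (add_le_add le_rfl (mul_le_mul_of_nonneg_right ?_ hη))
    rw [show 2 * √τ * ν * α l = 2 * (√τ * (ν * α l)) by ring]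
    exact two _ (bt _ _ hs0 hs1 (b2 _ _ hν (hαM l)))
  have T8 : 2 * τ * c * ν * wavg v m ≤ 2 * τ * c * ν * D + 2 * M ^ 2 * η := by
    refine (abs_mul_sub_le S.m1).trans (add_le_add le_rfl (mul_le_mul_of_nonneg_right ?_ hη))
    rw [show 2 * τ * c * ν = 2 * (τ * (c * ν)) by ring]
    exact two _ (bt _ _ hτ hτ1 (b2 _ _ hc hν))
  have S2 := sum_le_sum (s := univ) fun l _ => T2 l
  have S6 := sum_le_sum (s := univ) fun l _ => T6 l
  have S7 := sum_le_sum (s := univ) fun l _ => T7 l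
  have S5 := sum_le_sum (s := univ) fun l _ => sum_le_sum (s := univ) fun p _ => T5 l p
  simp only [sum_add_distrib, sum_const, card_univ, Fintype.card_fin, nsmul_eq_mul]
    at S2 S5 S6 S7
  have q5 : ∑ l, ∑ p, τ * α l * α p * ((if l = p then A + D else 0)
        + ρ l * ρ p * (-2 * (A - 2 * D)))
      = τ * (A + D) * (∑ l, α l ^ 2) + τ * (-2 * (A - 2 * D)) * (∑ l, α l * ρ l) ^ 2 := by
    rw [sq (∑ l, α l * ρ l), sum_mul_sum, mul_sum, mul_sum, ← sum_add_distrib]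
    refine sum_congr rfl fun l _ => ?_
    have h1 : ∀ p, τ * α l * α p * ((if l = p then A + D else 0)
        + ρ l * ρ p * (-2 * (A - 2 * D)))
        = (if l = p then τ * (A + D) * α l ^ 2 else 0)
          + τ * (-2 * (A - 2 * D)) * (α l * ρ l * (α p * ρ p)) := by
      intro p
      split_ifs with h
      · subst h; ring
      · ring
    rw [sum_congr rfl fun p _ => h1 p, sum_add_distrib, sum_ite_eq, if_pos (mem_univ l), mul_sum]
  have q6 : ∑ l, 2 * (√τ * τ) * c * α l * (ρ l * (-2 * D))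
      = 2 * (√τ * τ) * c * (-2 * D) * ∑ l, α l * ρ l := by
    rw [mul_sum]; exact sum_congr rfl fun l _ => by ring
  have q7 : ∑ l, 2 * √τ * ν * α l * (ρ l * (A - 2 * D))
      = 2 * √τ * ν * (A - 2 * D) * ∑ l, α l * ρ l := by
    rw [mul_sum]; exact sum_congr rfl fun l _ => by ring
  rw [q5] at S5
  rw [q6] at S6
  rw [q7] at S7
  have hk : (0:ℝ) ≤ k := k.cast_nonneg
  have hME : 0 ≤ M ^ 2 * η := mul_nonneg (sq_nonneg M) hη
  have herr : (7 + 6 * (k:ℝ) + k * k) * (M ^ 2 * η) ≤ 3 * (k + 3) ^ 2 * (M ^ 2 * η) :=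
    mul_le_mul_of_nonneg_right (by nlinarith) hME
  linarith

/-- The shift by `ε` leaves a margin. -/
lemma shift_margin {ε τ B Q G F P E X : ℝ} (hε : 0 ≤ ε) (hε2 : 20 * ε ≤ 1 - τ) (hτ : 0 ≤ τ)
    (hτ1 : τ ≤ 1) (hB : B ≤ 1) (hE : 0 ≤ E) (hQ : Q ≤ τ * B + (F + X + P) + E)
    (hF : F ≤ -G) (hP : ε * (X + P) ≤ G) :
    -τ * B - ε + Q / (1 - ε) - X - P ≤ -(ε * (1 - τ) / 2) + 2 * E := by
  have h1ε : 0 < 1 - ε := by linarith
  have h : Q / (1 - ε) ≤ τ * B + ε + X + P - ε * (1 - τ) / 2 + 2 * E := by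
    rw [div_le_iff₀ h1ε]
    have h7 : τ * B ≤ τ := mul_le_of_le_one_right hτ hB
    have := mul_nonneg hE (show (0:ℝ) ≤ 1 - 2 * ε by linarith)
    have := mul_nonneg hε (show (0:ℝ) ≤ (1 - τ) / 2 - ε by linarith)
    have := mul_le_mul_of_nonneg_left h7 hε
    have := mul_nonneg (mul_nonneg hε hε) (show (0:ℝ) ≤ 1 - τ by linarith)
    linarith
  linarith

/-- The error constants. -/
lemma err_margin (k : ℕ) {D M η : ℝ} (hD : 0 < D) (hM : 1 ≤ M) (hη : 0 ≤ η) (hMdef : M = 8 / D) :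
    (2 * M + 8) * η + 2 * (3 * ((k:ℝ) + 3) ^ 2 * M ^ 2 * η)
      ≤ 1000 * (k + 3) ^ 2 / D ^ 2 * η := by
  rw [show 2 * (3 * ((k:ℝ) + 3) ^ 2 * M ^ 2 * η) = 6 * ((k:ℝ) + 3) ^ 2 * M ^ 2 * η by ring,
    ← add_mul]
  refine mul_le_mul_of_nonneg_right ?_ hη
  rw [show 1000 * ((k:ℝ) + 3) ^ 2 / D ^ 2 = 1000 / 64 * ((k:ℝ) + 3) ^ 2 * M ^ 2 by
    rw [hMdef]; field_simp; ring]
  have h8 : (9:ℝ) ≤ ((k:ℝ) + 3) ^ 2 := by
    have := pow_le_pow_left₀ (by norm_num) (show (3:ℝ) ≤ (k:ℝ) + 3 by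
      linarith [k.cast_nonneg (α := ℝ)]) 2
    linarith
  have h9 : M ≤ M ^ 2 := by rw [sq]; exact le_mul_of_one_le_left (by linarith) hM
  have := mul_le_mul h8 (hM.trans h9) zero_le_one (by positivity)
  have := mul_le_mul_of_nonneg_right h8 (sq_nonneg M)
  linarith

/-- Completing the square with a diagonal `w` that exceeds `v` by at most `χ` after the shift. -/
lemma box_square_le [Nonempty ι] {v w χ L a : ι → ℝ} {B ε : ℝ}
    (hw : ∀ i, 0 < w i ∧ ε * w i < 1 ∧ w i / (1 - ε * w i) ≤ v i / (1 - ε) + χ i)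
    (ha : ∑ i, a i ^ 2 = 1) :
    2 * dot a (fun i => L i / √(Fintype.card ι)) - ∑ i, (1 / w i + B) * a i ^ 2
      ≤ -B - ε + wavg v (fun i => L i ^ 2) / (1 - ε) + wavg χ (fun i => L i ^ 2) := by
  have hd : ∀ i, 0 < 1 / w i + B + (-B - ε) := fun i => by
    obtain ⟨w0, w1, -⟩ := hw i
    have : ε < 1 / w i := by rw [lt_div_iff₀ w0]; exact w1
    linarith
  have h1 := linear_sub_quad_le (d := fun i => 1 / w i + B) hd
    (fun i => L i / √(Fintype.card ι)) a ha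
  have hn : (0:ℝ) < Fintype.card ι := by exact_mod_cast Fintype.card_pos
  have h2 : ∑ i, (L i / √(Fintype.card ι)) ^ 2 / (1 / w i + B + (-B - ε))
      ≤ wavg v (fun i => L i ^ 2) / (1 - ε) + wavg χ (fun i => L i ^ 2) := by
    simp only [wavg, sum_div, ← sum_add_distrib]
    refine sum_le_sum fun i _ => ?_
    obtain ⟨w0, w1, w2⟩ := hw i
    have e : 1 / w i + B + (-B - ε) = (1 - ε * w i) / w i := by field_simp; ring
    rw [e, div_pow, sq_sqrt hn.le, div_div_eq_mul_div, div_mul_eq_mul_div, div_div,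
      mul_comm (Fintype.card ι : ℝ), ← div_div, mul_div_assoc]
    have h := mul_le_mul_of_nonneg_left w2 (sq_nonneg (L i))
    have e2 : v i * L i ^ 2 / (Fintype.card ι : ℝ) / (1 - ε) + χ i * L i ^ 2 / (Fintype.card ι : ℝ)
        = L i ^ 2 * (v i / (1 - ε) + χ i) / (Fintype.card ι : ℝ) := by ring
    rw [e2]
    exact div_le_div_of_nonneg_right h hn.le
  linarith

/-- The edge at the zero node: `m = 0`, `v = 1`. -/
theorem secular_edge_zero [Nonempty ι] {k : ℕ} {g : ι → ℝ} {Z : Fin k → ι → ℝ}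
    {w χ a : ι → ℝ} {η τ ε s c : ℝ} {α : Fin k → ℝ}
    (S : SiteStats (fun _ => 1) (fun _ => 0) g Z (fun _ => 0) 1 0 η) (hτ : 0 < τ) (hτ1 : τ < 1)
    (hη : 0 ≤ η) (hε : 0 < ε) (hε1 : 20 * ε ≤ 1 - τ)
    (hsα : s ^ 2 + ∑ l, α l ^ 2 = 1) (hc : |c| ≤ 1)
    (hw : ∀ i, 0 < w i ∧ ε * w i < 1 ∧ w i / (1 - ε * w i) ≤ 1 / (1 - ε) + χ i)
    (ha : ∑ i, a i ^ 2 = 1) :
    2 * dot a (fun i => siteField τ s α c 0 (fun _ => 0) g Z i / √(Fintype.card ι))
      - (∑ i, (1 / w i + τ) * a i ^ 2) - τ * c ^ 2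
      ≤ -(ε * (1 - τ) / 2) + 6 * (k + 3) ^ 2 * η
        + wavg χ (fun i => siteField τ s α c 0 (fun _ => 0) g Z i ^ 2) := by
  have hα : ∀ l, |α l| ≤ 1 := fun l => by
    have := single_le_sum (f := fun l => α l ^ 2) (fun l _ => sq_nonneg _) (mem_univ l)
    exact abs_le_one_iff_mul_self_le_one.2 (by nlinarith [sq_nonneg s])
  have hs1 : |s| ≤ 1 := by
    have := sum_nonneg (s := univ) fun l _ => sq_nonneg (α l)
    exact abs_le_one_iff_mul_self_le_one.2 (by nlinarith)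
  have hQ := wavg_siteField_le (s := s) (c := c) (ν := 0) (M := 1) (α := α) S hτ.le hτ1.le hη
    le_rfl hs1 hc (by simp) hα
  rw [hsα] at hQ
  simp only [mul_zero, sum_const_zero] at hQ
  set Q := wavg (fun _ => (1:ℝ)) fun i => siteField τ s α c 0 (fun _ => 0) g Z i ^ 2
  set E := 3 * ((k:ℝ) + 3) ^ 2 * η
  have h1 := box_square_le (v := fun _ => (1:ℝ)) (B := τ)
    (L := siteField τ s α c 0 (fun _ => 0) g Z) hw ha
  have hc2 : τ * c ^ 2 * (1 - τ) ≥ ε * (τ * c ^ 2) := by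
    rw [mul_comm ε]
    exact mul_le_mul_of_nonneg_left (by linarith) (mul_nonneg hτ.le (sq_nonneg c))
  have h2 := shift_margin (X := τ * c ^ 2) (P := 0) (B := 1) (Q := Q) (E := E)
    (G := τ * c ^ 2 * (1 - τ)) (F := -(τ * c ^ 2 * (1 - τ))) hε.le hε1 hτ.le hτ1.le le_rfl
    (show 0 ≤ E by positivity) (by simp only [E]; linarith) le_rfl (by linarith)
  simp only [E] at h2
  linarith

/-- Below the AT line the linearised TAP Hessian is negative on every unit vector, with a margin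
that does not depend on `k`. -/
theorem secular_edge [Nonempty ι] {k : ℕ} {v m g : ι → ℝ} {Z : Fin k → ι → ℝ}
    {ρ : Fin k → ℝ} {A D η τ ε s c r R : ℝ} {α : Fin k → ℝ} {w χ : ι → ℝ}
    (S : SiteStats v m g Z ρ A D η) (hτ : 0 < τ) (hτ1 : τ < 1)
    (hA : 0 ≤ A) (hD : 0 < D) (hAD : A + D ≤ 1) (hη : 0 ≤ η) (hε : 0 < ε)
    (hε1 : 20 * ε ≤ (1 - τ) ^ 2 * D) (hsα : s ^ 2 + ∑ l, α l ^ 2 = 1)
    (hc : |c| ≤ 2) (hR : |R| ≤ 2) (hr : |r - R| ≤ η) (hr2 : |r| ≤ 2)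
    (hρ : ∑ l, α l * ρ l = √τ * R)
    (hw : ∀ i, 0 < w i ∧ ε * w i < 1 ∧ w i / (1 - ε * w i) ≤ v i / (1 - ε) + χ i)
    (a : ι → ℝ) (ha : ∑ i, a i ^ 2 = 1) :
    2 * dot a (fun i => siteField τ s α c
        (((1 - τ * A + 2 * τ * D) * R - τ * D * c) / D) m g Z i / √(Fintype.card ι))
      - (∑ i, (1 / w i + τ * (A + D)) * a i ^ 2) - τ * c ^ 2
      - 2 * (((1 - τ * A + 2 * τ * D) * R - τ * D * c) / D) * r + 2 * τ * r ^ 2
      ≤ -(ε * (1 - τ) / 2) + 1000 * (k + 3) ^ 2 / D ^ 2 * η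
        + wavg χ (fun i => siteField τ s α c
          (((1 - τ * A + 2 * τ * D) * R - τ * D * c) / D) m g Z i ^ 2) := by
  have hτA : τ * A ≤ τ := mul_le_of_le_one_right hτ.le (by linarith)
  set K := 1 - τ * A + 2 * τ * D
  have hτD : τ * D ≤ 1 := mul_le_one₀ hτ1.le hD.le (by linarith)
  have hK0 : 0 ≤ K := by
    have := mul_nonneg hτ.le hD.le
    simp only [K]; linarith
  have hK3 : K ≤ 3 := by
    have := mul_nonneg hτ.le hA
    simp only [K]; linarith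
  set ν := (K * R - τ * D * c) / D with hνdef
  set M := 8 / D with hMdef
  have hM : 1 ≤ M := by rw [hMdef, le_div_iff₀ hD]; linarith
  have hν : |ν| ≤ M := by
    rw [hνdef, hMdef, abs_div, abs_of_pos hD]
    refine div_le_div_of_nonneg_right ((abs_sub _ _).trans ?_) hD.le
    rw [abs_mul, abs_mul, abs_of_nonneg hK0, abs_of_nonneg (mul_nonneg hτ.le hD.le)]
    have := mul_le_mul hK3 hR (abs_nonneg R) (by norm_num : (0:ℝ) ≤ 3)
    have := mul_le_mul hτD hc (abs_nonneg c) zero_le_one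
    linarith
  have hα : ∀ l, |α l| ≤ 1 := fun l => by
    have := single_le_sum (f := fun l => α l ^ 2) (fun l _ => sq_nonneg _) (mem_univ l)
    exact abs_le_one_iff_mul_self_le_one.2 (by nlinarith [sq_nonneg s])
  have hs1 : |s| ≤ 1 := by
    have := sum_nonneg (s := univ) fun l _ => sq_nonneg (α l)
    exact abs_le_one_iff_mul_self_le_one.2 (by nlinarith)
  have hQ := wavg_siteField_le (s := s) (c := c) (ν := ν) (M := M) (α := α) S hτ.le hτ1.le hη hM
    hs1 (hc.trans (by rw [hMdef, le_div_iff₀ hD]; linarith)) hν hα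
  rw [hρ, hsα] at hQ
  have hst : √τ * √τ = τ := mul_self_sqrt hτ.le
  set Q := wavg v fun i => siteField τ s α c ν m g Z i ^ 2
  set E := 3 * ((k:ℝ) + 3) ^ 2 * M ^ 2 * η
  have hQ' : Q ≤ τ * (A + D) + (secularForm τ A D R c ν + τ * c ^ 2 + 2 * ν * R - 2 * τ * R ^ 2)
      + E := by
    refine hQ.trans (le_of_eq ?_)
    simp only [secularForm]
    linear_combination (τ * (-2 * (A - 2 * D)) * R ^ 2 + 2 * τ * c * (-2 * D) * R
      + 2 * ν * (A - 2 * D) * R) * hst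
  have hε2 : 20 * ε ≤ 1 - τ := by
    have h1 : (1 - τ) ^ 2 * D ≤ (1 - τ) * 1 := by
      have h3 : (1 - τ) ^ 2 ≤ 1 - τ := by
        rw [sq]; exact mul_le_of_le_one_right (by linarith) (by linarith)
      exact (mul_le_of_le_one_right (sq_nonneg _) (by linarith)).trans (by linarith)
    linarith
  set μ := -τ * (A + D) - ε with hμdef
  have h1 := box_square_le (v := v) (B := τ * (A + D))
    (L := siteField τ s α c ν m g Z) hw ha
  set F := secularForm τ A D R c ν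
  have hF : F ≤ -(1 - τ * A) * ((1 - τ * A) * R ^ 2 + τ * (c - R) ^ 2) :=
    secular_form_le hτ.le (by linarith) hD (by linarith) R c
  have hP : ε * (τ * c ^ 2 + 2 * ν * R - 2 * τ * R ^ 2)
      ≤ (1 - τ * A) * ((1 - τ * A) * R ^ 2 + τ * (c - R) ^ 2) := by
    have h3 : 2 * ν * R = 2 * K * R ^ 2 / D - 2 * τ * c * R := by
      rw [hνdef]; field_simp
    have h4 : 2 * K * R ^ 2 / D ≤ 6 / D * R ^ 2 := by
      rw [div_mul_eq_mul_div]
      exact div_le_div_of_nonneg_right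
        (mul_le_mul_of_nonneg_right (by linarith) (sq_nonneg R)) hD.le
    have h5 : τ * c ^ 2 + 2 * ν * R - 2 * τ * R ^ 2 ≤ 6 / D * R ^ 2 + τ * (c - R) ^ 2 := by
      rw [h3]
      have := mul_nonneg hτ.le (sq_nonneg R)
      linarith [show τ * (c - R) ^ 2 = τ * c ^ 2 - 2 * τ * c * R + τ * R ^ 2 by ring]
    refine (mul_le_mul_of_nonneg_left h5 hε.le).trans ?_
    rw [mul_add, mul_add]
    refine add_le_add ?_ ?_
    · rw [← mul_assoc, ← mul_assoc]
      refine mul_le_mul_of_nonneg_right ?_ (sq_nonneg R)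
      have h6 : (1 - τ) ^ 2 ≤ (1 - τ * A) * (1 - τ * A) := by
        rw [sq]; exact mul_le_mul (by linarith) (by linarith) (by linarith) (by linarith)
      rw [← mul_div_assoc, div_le_iff₀ hD]
      have := mul_le_mul_of_nonneg_right h6 hD.le
      linarith
    · exact mul_le_mul_of_nonneg_right (by linarith) (mul_nonneg hτ.le (sq_nonneg _))
  have hr' : -2 * ν * r + 2 * τ * r ^ 2 ≤ -2 * ν * R + 2 * τ * R ^ 2 + (2 * M + 8) * η := by
    have a1 := abs_mul_sub_le (a := -2 * ν) hr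
    have a2 : r ^ 2 - R ^ 2 ≤ 4 * η := by
      refine (le_abs_self _).trans ?_
      rw [show r ^ 2 - R ^ 2 = (r + R) * (r - R) by ring, abs_mul]
      exact mul_le_mul ((abs_add_le _ _).trans (by linarith)) hr (abs_nonneg _) (by norm_num)
    have a3 := mul_le_mul_of_nonneg_left a2 hτ.le
    have a4 : |-2 * ν| * η ≤ 2 * M * η := by
      refine mul_le_mul_of_nonneg_right ?_ hη
      rw [abs_mul, show |(-2:ℝ)| = 2 by norm_num]
      linarith
    have a5 : τ * (4 * η) ≤ 1 * (4 * η) := mul_le_mul_of_nonneg_right hτ1.le (by linarith)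
    linarith
  have hmain : μ + Q / (1 - ε) - τ * c ^ 2 + (-2 * ν * R + 2 * τ * R ^ 2)
      ≤ -(ε * (1 - τ) / 2) + 2 * E := by
    rw [hμdef]
    have := shift_margin (X := τ * c ^ 2) (P := 2 * ν * R - 2 * τ * R ^ 2)
      (G := (1 - τ * A) * ((1 - τ * A) * R ^ 2 + τ * (c - R) ^ 2)) (F := F) hε.le hε2 hτ.le
      hτ1.le hAD (show 0 ≤ E by positivity) (show Q ≤ _ by linarith) (hF.trans_eq (neg_mul _ _))
      (le_of_eq_of_le (by ring) hP)
    linarith
  linarith [err_margin k hD hM hη hMdef]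

end Vale.Agent.P150.Beta1
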