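import Mathlib
import Vale.Agent.P150.Beta1.GaussCompare

/-!
# Comparison for a symmetrised Gaussian quadratic form on vectors of any length
-/

namespace Vale.Agent.P150.Beta1

open MeasureTheory ProbabilityTheory Finset Real

variable {S : Type*} [Fintype S] [Nonempty S]

/-- `E sup [√τ bᵀWb + c] ≤ E sup [2√(τ/n) ‖b‖ ⟨g, b⟩ + c]` for `W = (G+Gᵀ)/√(2n)`. -/
theorem quad_comparison {n : ℕ} {τ : ℝ} (hτ : 0 ≤ τ) (j₀ : Fin n) (b : S → Fin n → ℝ)
    (c : S → ℝ) :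
    ∫ g, univ.sup' univ_nonempty (fun s =>
        lin (fun p : Fin n × Fin n => √(2 * τ / n) * (b s p.1 * b s p.2)) g + c s)
          ∂gauss (Fin n × Fin n)
      ≤ ∫ g, univ.sup' univ_nonempty (fun s =>
        (∑ i, 2 * √(τ / n) * √(∑ k, b s k ^ 2) * b s i * g (i, j₀)) + c s)
          ∂gauss (Fin n × Fin n) := by
  set B : S → Fin n × Fin n → ℝ := fun s p =>
    if p.2 = j₀ then 2 * √(τ / n) * √(∑ k, b s k ^ 2) * b s p.1 else 0
  have hinc : ∀ s t, ∑ p : Fin n × Fin n,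
      (√(2 * τ / n) * (b s p.1 * b s p.2) - √(2 * τ / n) * (b t p.1 * b t p.2)) ^ 2
      ≤ ∑ p, (B s p - B t p) ^ 2 := by
    intro s t
    set P := √(∑ i, b s i ^ 2)
    set Q := √(∑ i, b t i ^ 2)
    have hP : P ^ 2 = ∑ i, b s i ^ 2 := sq_sqrt (sum_nonneg fun i _ => sq_nonneg _)
    have hQ : Q ^ 2 = ∑ i, b t i ^ 2 := sq_sqrt (sum_nonneg fun i _ => sq_nonneg _)
    set ρ := ∑ i, b s i * b t i
    have h0 : 0 ≤ τ / n := by positivity
    have f : ∀ a a' : Fin n → ℝ, ∑ p : Fin n × Fin n, a p.1 * a' p.2 = (∑ i, a i) * ∑ i, a' i :=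
      fun a a' => by rw [Fintype.sum_prod_type, sum_mul_sum]
    have hl : ∑ p : Fin n × Fin n,
        (√(2 * τ / n) * (b s p.1 * b s p.2) - √(2 * τ / n) * (b t p.1 * b t p.2)) ^ 2
        = 2 * (τ / n) * (P ^ 2 * P ^ 2 + Q ^ 2 * Q ^ 2 - 2 * ρ ^ 2) := by
      have e : ∀ p : Fin n × Fin n,
          (√(2 * τ / n) * (b s p.1 * b s p.2) - √(2 * τ / n) * (b t p.1 * b t p.2)) ^ 2
          = 2 * (τ / n) * (b s p.1 ^ 2 * b s p.2 ^ 2 + b t p.1 ^ 2 * b t p.2 ^ 2
              - 2 * (b s p.1 * b t p.1 * (b s p.2 * b t p.2))) := fun p => by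
        rw [← mul_sub, mul_pow, sq_sqrt (by positivity)]
        ring
      simp only [e, ← mul_sum, sum_sub_distrib, sum_add_distrib]
      rw [f (fun i => b s i ^ 2) (fun i => b s i ^ 2), f (fun i => b t i ^ 2) (fun i => b t i ^ 2),
        f (fun i => b s i * b t i) (fun i => b s i * b t i), hP, hQ]
      ring
    have hr : ∑ p, (B s p - B t p) ^ 2
        = 4 * (τ / n) * (P ^ 2 * P ^ 2 + Q ^ 2 * Q ^ 2 - 2 * (P * Q * ρ)) := by
      rw [Fintype.sum_prod_type]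
      have e : ∀ i, ∑ j, (B s (i, j) - B t (i, j)) ^ 2
          = 4 * (τ / n) * (P ^ 2 * b s i ^ 2 + Q ^ 2 * b t i ^ 2
              - 2 * (P * Q * (b s i * b t i))) := fun i => by
        rw [sum_eq_single j₀ (fun j _ hj => by simp [B, hj]) (by simp)]
        simp only [B, if_pos rfl]
        linear_combination 4 * (P * b s i - Q * b t i) ^ 2 * sq_sqrt h0
      simp only [e, ← mul_sum, sum_sub_distrib, sum_add_distrib, ← hP, ← hQ]
      rfl
    rw [hl, hr]
    nlinarith [mul_nonneg h0 (sq_nonneg (P ^ 2 - Q ^ 2)), mul_nonneg h0 (sq_nonneg (P * Q - ρ))]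
  refine (sup_comparison _ B c hinc).trans (le_of_eq ?_)
  refine integral_congr_ae (ae_of_all _ fun g => ?_)
  refine sup'_congr _ rfl fun s _ => ?_
  simp only [lin, B]
  rw [Fintype.sum_prod_type]
  congr 1
  refine sum_congr rfl fun i _ => ?_
  rw [sum_eq_single j₀ (fun j _ hj => by simp [hj]) (by simp)]
  simp

end Vale.Agent.P150.Beta1
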