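import Mathlib
import Vale.Agent.P150.Beta1.LargeField.Gap
import Vale.Agent.P150.Beta1.LargeField.Exit

/-!
# Entropy factorisation and gap at fields that are large off a small set of sites

The couplings are switched on from zero. The path of fields leaves the ball of radius of order
`√n` with probability `exp (-n)` given any configuration, and out there the crude factorisation
constant `exp (6 n)` is enough.
-/

namespace Vale.Agent.P150.Beta1

open MeasureTheory ProbabilityTheory Finset Filter Real
open scoped ENNReal Topology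

/-- At every field with at most `ε n` sites below `A` entropy factorises and the gap is bounded
below, with probability tending to one. -/
def LargeFieldStatement (β : ℝ) : Prop :=
  ∃ A > 0, ∃ ε > 0, ∃ K ≥ 0, ∃ κ > 0, Tendsto (fun n : ℕ =>
    Measure.pi (fun _ : Fin n × Fin n => gaussianReal 0 1)
      {g | ∀ y : Fin n → ℝ, ((univ.filter fun i => |y i| < A).card : ℝ) ≤ ε * n →
        EntFactor (gibbs (skCoupling β g) y) K ∧
        ∀ f : (Fin n → Bool) → ℝ, κ * variance (gibbs (skCoupling β g) y) f
          ≤ dirichlet (gibbs (skCoupling β g) y) f})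
    atTop (𝓝 1)

variable {n : ℕ}

lemma entFactor_crude {J : Fin n → Fin n → ℝ}
    (hop : ∀ a : Fin n → ℝ, |∑ i, ∑ j, J i j * a i * a j| ≤ 3 * ∑ i, a i ^ 2) (h : Fin n → ℝ) :
    EntFactor (gibbs J h) (exp (6 * n)) := by
  have hE : ∀ x, |energy J h x - energy (0 : Fin n → Fin n → ℝ) h x| ≤ 3 / 2 * n := fun x => by
    have := hop fun i => spin (x i)
    have e : ∀ i, spin (x i) ^ 2 = 1 := fun i => by cases x i <;> simp [spin]
    simp only [e, sum_const, card_univ, Fintype.card_fin, nsmul_eq_mul, mul_one] at this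
    simp only [energy, Pi.zero_apply, zero_mul, sum_const_zero, zero_div, zero_add,
      add_sub_cancel_right]
    rw [abs_div, abs_two]
    linarith
  have key : ∀ (u v : (Fin n → Bool) → ℝ), (∀ x, |u x - v x| ≤ 3 / 2 * n) → ∀ x,
      exp (u x) / (∑ z, exp (u z)) ≤ exp (3 * n) * (exp (v x) / ∑ z, exp (v z)) := by
    intro u v huv x
    have hv : 0 < ∑ z, exp (v z) := sum_pos (fun z _ => exp_pos _) univ_nonempty
    have hu : 0 < ∑ z, exp (u z) := sum_pos (fun z _ => exp_pos _) univ_nonempty
    have h1 : exp (u x) ≤ exp (3 / 2 * n) * exp (v x) := by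
      rw [← exp_add, exp_le_exp]
      linarith [(abs_le.1 (huv x)).2]
    have h2 : ∑ z, exp (v z) ≤ exp (3 / 2 * n) * ∑ z, exp (u z) := by
      rw [mul_sum]
      refine sum_le_sum fun z _ => ?_
      rw [← exp_add, exp_le_exp]
      linarith [(abs_le.1 (huv z)).1]
    rw [div_le_iff₀ hu, show (3 : ℝ) * n = 3 / 2 * n + 3 / 2 * n by ring, exp_add]
    calc exp (u x) ≤ exp (3 / 2 * n) * exp (v x) := h1
      _ = exp (3 / 2 * n) * (exp (v x) / ∑ z, exp (v z)) * ∑ z, exp (v z) := by field_simp
      _ ≤ exp (3 / 2 * n) * (exp (v x) / ∑ z, exp (v z))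
            * (exp (3 / 2 * n) * ∑ z, exp (u z)) :=
          mul_le_mul_of_nonneg_left h2 (by positivity)
      _ = _ := by ring
  have h := (entFactor_zero h).perturb zero_le_one (IsWeight.gibbs _ _) (IsWeight.gibbs J h)
    (key _ _ hE) (key _ _ fun x => by rw [abs_sub_comm]; exact hE x)
  rwa [one_mul, show 2 * (3 * (n : ℝ)) = 6 * n by ring] at h

/-- Entropy factorises at every field that is large off a small set. -/
theorem entFactor_largeField {A ε ε' : ℝ} {J : Fin n → Fin n → ℝ}
    (hJ : LargeFieldCoupling ε' J) (hA : 30 ≤ A) (hε : ε + 8 * (1921 + 9) / A ^ 2 ≤ ε')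
    {y : Fin n → ℝ} (hy : ((univ.filter fun i => |y i| < A).card : ℝ) ≤ ε * n) :
    EntFactor (gibbs J y) (2 * exp 775) := by
  obtain ⟨R, hJR, hR⟩ := exists_factor hJ.1 hJ.2.2.2.2.1
  norm_num at hR
  set m := (n : ℝ)
  set W := 6 * m with hWdef
  have hlim : Tendsto (fun N : ℕ => (1 : ℝ) / N) atTop (𝓝 0) :=
    tendsto_one_div_atTop_nhds_zero_nat
  have small : ∀ c b : ℝ, 0 < b → ∀ᶠ N : ℕ in atTop, 1 / (N : ℝ) * c ≤ b := fun c b hb => by
    have h2 : Tendsto (fun N : ℕ => 1 / (N : ℝ) * c) atTop (𝓝 0) := by
      simpa using hlim.mul_const c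
    exact h2.eventually_le_const hb
  obtain ⟨N, hNpos, c1, c2, c3, c4, c5⟩ := ((eventually_gt_atTop 0).and <|
    (small W 1 one_pos).and <| (small (4 * m ^ 2 * W) 1 one_pos).and <|
    (small (2 * W ^ 2) 1 one_pos).and <|
    (small (2 * (8 * m * W ^ 3 + 4 * W ^ 2)) 1 one_pos).and
    (small (16 * 6 * 4 + 2) (1 / 2) (by norm_num))).exists
  set e := 1 / (N : ℝ) with hedef
  have hN : (0:ℝ) < N := Nat.cast_pos.2 hNpos
  have he : 0 < e := one_div_pos.2 hN
  have he1 : e ≤ 1 := by
    rw [hedef, div_le_one hN]
    exact_mod_cast hNpos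
  have hm : 0 ≤ m := Nat.cast_nonneg _
  set P : ℕ → (Fin n → ℝ) → ℝ := fun k h =>
    (1 + k * e) / 96 * (∑ i, (h i - y i) ^ 2) + 25 / 8 * (k * e) * m - 4 * m with hP
  have main : ∀ k : ℕ, k ≤ N → ∀ h, EntFactor (gibbs (fun i j => (k : ℝ) * e * J i j) h)
      (exp ((k : ℝ) * (e * 775)) * (1 + exp (P k h))) := by
    intro k
    induction k with
    | zero =>
      intro _ h f hf
      simp only [Nat.cast_zero, zero_mul, exp_zero, one_mul]
      refine (entFactor_zero h f hf).trans (mul_le_mul_of_nonneg_right ?_ ?_)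
      · linarith [exp_pos (P 0 h)]
      · exact sum_nonneg fun i _ => siteEnt_nonneg (IsWeight.gibbs _ _) hf i
    | succ k ih =>
      intro hk h
      have hk1 : ((k : ℝ) + 1) * e ≤ 1 := by
        rw [hedef, mul_one_div, div_le_one hN]
        exact_mod_cast hk
      have hk0 : 0 ≤ (k : ℝ) * e := mul_nonneg (Nat.cast_nonneg _) he.le
      push_cast
      have hJk := hJ.scale (t := ((k : ℝ) + 1) * e) (by positivity) hk1
      rcases lt_or_ge (960 * m) (∑ i, (h i - y i) ^ 2) with hout | hin
      · intro f hf
        refine (entFactor_crude hJk.2.2.2.2.1 h f hf).trans (mul_le_mul_of_nonneg_right ?_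
          (sum_nonneg fun i _ => siteEnt_nonneg (IsWeight.gibbs _ _) hf i))
        have h1 : (6 : ℝ) * n ≤ P (k + 1) h := by
          have := mul_le_mul_of_nonneg_left hout.le
            (show (0:ℝ) ≤ (1 + ((k : ℝ) + 1) * e) / 96 by positivity)
          have := mul_nonneg (show 0 ≤ ((k : ℝ) + 1) * e by positivity) hm
          simp only [hP, Nat.cast_add, Nat.cast_one]
          change 6 * m ≤ _
          linarith
        have h2 := exp_le_exp.2 h1
        have h3 : 1 ≤ exp (((k : ℝ) + 1) * (e * 775)) := one_le_exp (by positivity)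
        have h4 := exp_pos (P (k + 1) h)
        nlinarith
      have hh : ∀ a : Fin n → ℝ, (∀ i, |a i| ≤ 2 / 4) → ∀ t ∈ Set.Icc (0:ℝ) 1,
          variance (gibbs (fun i j => ((k : ℝ) + 1) * e * J i j) fun i => h i + t * a i) (linObs a)
            ≤ 4 * ∑ i, a i ^ 2 := by
        intro a ha t ht
        refine cov_largeField hJk hA hε hy ?_ a
        have hpt : ∀ i, (h i + t * a i - y i) ^ 2 ≤ 2 * (h i - y i) ^ 2 + 1 := fun i => by
          have h1 : |t * a i| ≤ 2 / 4 := by
            rw [abs_mul, abs_of_nonneg ht.1]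
            exact (mul_le_of_le_one_left (abs_nonneg _) ht.2).trans (ha i)
          have h2 := pow_le_pow_left₀ (abs_nonneg _) h1 2
          rw [sq_abs] at h2
          have h3 := (add_sq_le (a := h i - y i) (b := t * a i))
          rw [show h i + t * a i - y i = h i - y i + t * a i by ring]
          linarith
        refine (sum_le_sum fun i _ => hpt i).trans ?_
        rw [sum_add_distrib, ← mul_sum, sum_const, card_univ, Fintype.card_fin, nsmul_eq_mul]
        change _ ≤ 1921 * m
        linarith
      have hstep := entFactor_step (J₁ := fun i j => (k : ℝ) * e * J i j)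
        (J₂ := fun i j => ((k : ℝ) + 1) * e * J i j) (R := R) (α := 6) (C := 4) (ε := e) (W := W)
        (h := h) (K := exp ((k : ℝ) * (e * 775)) * (1 + exp (P (k + 1) h))) hh (by norm_num)
        (by norm_num) hR (fun h' => ⟨-(e / 2 * (3 * m)), fun x => ?_⟩) (by positivity)
        (fun s => by positivity) (fun s => ih (by omega) _) (fun x => ?_) he
        (by rw [Fintype.card_fin]) c1 (by rw [Fintype.card_fin]; linarith) c3 ?_ c5
      · intro f hf
        refine (hstep f hf).trans (mul_le_mul_of_nonneg_right (le_of_eq ?_)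
          (sum_nonneg fun i _ => siteEnt_nonneg (IsWeight.gibbs _ _) hf i))
        rw [mul_right_comm, ← exp_add]
        ring_nf
      · have e0 : ∑ k, factorObs R k x ^ 2
            = ∑ i, ∑ j, J i j * spin (x i) * spin (x j) + 3 * m := by
          have e1 : ∀ k, factorObs R k x ^ 2
              = ∑ i, ∑ j, R k i * R k j * (spin (x i) * spin (x j)) := fun k => by
            rw [factorObs, linObs, sq, sum_mul_sum]
            exact sum_congr rfl fun i _ => sum_congr rfl fun j _ => by ring
          have e3 : ∀ i j, ∑ k, R k i * R k j * (spin (x i) * spin (x j))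
              = J i j * spin (x i) * spin (x j)
                + if i = j then 3 * (spin (x i) * spin (x j)) else 0 := fun i j => by
            rw [← sum_mul, hJR]
            split_ifs <;> ring
          simp only [e1]
          rw [sum_comm, sum_congr rfl fun i _ => sum_comm]
          simp only [e3, sum_add_distrib, sum_ite_eq, mem_univ, if_true]
          have e2 : ∀ i, spin (x i) * spin (x i) = 1 := fun i => by cases x i <;> simp [spin]
          simp only [e2, mul_one, sum_const, card_univ, Fintype.card_fin, nsmul_eq_mul, m]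
          ring
        rw [e0]
        simp only [energy, mul_assoc, ← mul_sum]
        ring
      · suffices hP' : ∑ s, signProb (fun l => √e * factorObs R l x) s
            * exp (P k fun i => h i + √e * ∑ l, spin (s l) * R l i) ≤ exp (P (k + 1) h) by
          calc _ = exp ((k : ℝ) * (e * 775)) * (∑ s, signProb (fun l => √e * factorObs R l x) s
                + ∑ s, signProb (fun l => √e * factorObs R l x) s
                  * exp (P k fun i => h i + √e * ∑ l, spin (s l) * R l i)) := by
                rw [← sum_add_distrib, mul_sum]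
                exact sum_congr rfl fun s _ => by ring
            _ ≤ _ := by
                rw [signProb_sum]
                gcongr
        set θ := (1 + (k : ℝ) * e) / 96 with hθ
        set c := 25 / 8 * ((k : ℝ) * e) * m - 4 * m
        have hx := exit_step (R := R) (α := 6) (ε := e) (θ := θ) (by norm_num) he.le
          (by positivity) hR (fun i => h i - y i) x
        have e1 : ∀ s : Fin n → Bool,
            exp (P k fun i => h i + √e * ∑ l, spin (s l) * R l i)
              = exp c * exp (θ * ∑ i, (h i - y i + √e * ∑ l, spin (s l) * R l i) ^ 2) :=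
          fun s => by
            rw [← exp_add]
            simp only [hP, c, hθ]
            congr 1
            rw [sum_congr rfl fun i _ => show (h i + √e * ∑ l, spin (s l) * R l i - y i) ^ 2
              = (h i - y i + √e * ∑ l, spin (s l) * R l i) ^ 2 by ring]
            ring
        simp only [e1, mul_left_comm (signProb _ _), ← mul_sum]
        refine (mul_le_mul_of_nonneg_left hx (exp_pos c).le).trans ?_
        rw [← exp_add, exp_le_exp, Fintype.card_fin]
        have hθ2 : θ ≤ 1 / 48 := by rw [hθ]; linarith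
        have hθ0 : 0 ≤ θ := by positivity
        have hθ3 : 4 * 6 * θ ^ 2 ≤ 1 / 96 := by
          have := pow_le_pow_left₀ hθ0 hθ2 2
          linarith
        have hD : 0 ≤ ∑ i, (h i - y i) ^ 2 := sum_nonneg fun i _ => sq_nonneg _
        have g1 := mul_le_mul_of_nonneg_right
          (mul_le_mul_of_nonneg_left hθ3 he.le) hD
        have g2 := mul_le_mul_of_nonneg_left hθ2 (mul_nonneg he.le hm)
        simp only [hP, c, Nat.cast_add, Nat.cast_one]
        change _ + (_ + _ * m) ≤ _
        simp only [θ] at g1 g2 ⊢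
        linarith
      · rw [Fintype.card_fin]
        change 2 * e * (8 * m * (e * W ^ 3) + 4 * W ^ 2) ≤ 1
        have g : e * W ^ 3 ≤ W ^ 3 := mul_le_of_le_one_left (by positivity) he1
        have := mul_le_mul_of_nonneg_left g (show 0 ≤ 16 * e * m by positivity)
        linarith
  have h1 := main N le_rfl y
  have hNe : (N : ℝ) * e = 1 := by rw [hedef]; field_simp
  rw [← mul_assoc, hNe] at h1
  simp only [one_mul] at h1
  intro f hf
  refine (h1 f hf).trans (mul_le_mul_of_nonneg_right ?_
    (sum_nonneg fun i _ => siteEnt_nonneg (IsWeight.gibbs _ _) hf i))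
  have hP0 : exp (P N y) ≤ 1 := by
    rw [exp_le_one_iff]
    simp only [hP, hNe, sub_self, ne_eq, OfNat.ofNat_ne_zero, not_false_eq_true, zero_pow,
      sum_const_zero, mul_zero, zero_add]
    linarith
  have := mul_le_mul_of_nonneg_left hP0 (exp_pos 775).le
  linarith

/-- The large-field module. -/
theorem largeFieldStatement {β : ℝ} (hβ : 0 ≤ β) (hβ1 : β ≤ 1) : LargeFieldStatement β := by
  obtain ⟨ε', hε', hbl⟩ := tendsto_smallBlocks hβ hβ1 (η := 1 / 16) (by norm_num) (by norm_num)
  set A := 30 + 31000 / ε' with hAdef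
  have hd : 0 ≤ 31000 / ε' := by positivity
  refine ⟨A, by linarith, ε' / 2, by linarith, 2 * exp 775, by positivity, 1 / 4, by norm_num, ?_⟩
  have hA : 30 ≤ A := by linarith
  have hεA : ε' / 2 + 8 * (1921 + 9) / A ^ 2 ≤ ε' := by
    have h1 : 31000 / ε' ≤ A ^ 2 := by
      have : A ≤ A ^ 2 := le_self_pow₀ (by linarith) two_ne_zero
      linarith
    rw [div_le_iff₀ hε'] at h1
    have h2 : 8 * (1921 + 9) / A ^ 2 ≤ ε' / 2 := by
      rw [div_le_div_iff₀ (by positivity) two_pos]
      linarith
    linarith
  set D : ∀ n : ℕ, Set (Fin n × Fin n → ℝ) := fun n => {g | DisorderEvent β (1 / 10000) g}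
  have hD := tendsto_of_disorderEvent hβ (ε := 1 / 10000) (by norm_num) (by norm_num) (Gd := D)
    (Eventually.of_forall fun n g hg => hg)
  have hlow := ENNReal.Tendsto.sub hD hbl (Or.inl ENNReal.one_ne_top)
  rw [tsub_zero] at hlow
  refine tendsto_of_tendsto_of_tendsto_of_le_of_le' hlow tendsto_const_nhds ?_
    (Eventually.of_forall fun n => prob_le_one)
  refine Eventually.of_forall fun n => ?_
  refine le_measure_sdiff.trans (measure_mono ?_)
  rintro g ⟨hgD, hgb⟩ y hy
  obtain ⟨h1, h2, h3⟩ := hgD
  have hJ : LargeFieldCoupling ε' (skCoupling β g) := by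
    refine ⟨skCoupling_symm β g, skCoupling_self β g, fun i j => (h1 i j).trans ?_,
      fun i => (h2 i).trans ?_, fun a => (h3 a).trans ?_, not_not.1 hgb⟩
    · have hs : √2 ≤ 2 := by rw [Real.sqrt_le_iff]; norm_num
      calc √2 * β * (1 / 10000 / 2) ≤ 2 * 1 * (1 / 10000 / 2) := by gcongr
        _ = _ := by norm_num
    · calc β ^ 2 * (1 + 1 / 10000) ≤ 1 ^ 2 * (1 + 1 / 10000) := by gcongr
        _ ≤ _ := by norm_num
    · refine mul_le_mul_of_nonneg_right ?_ (sum_nonneg fun i _ => sq_nonneg _)
      linarith
  exact ⟨entFactor_largeField hJ hA hεA hy, fun f =>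
    gap_largeField (R := 1921) hJ hA hεA hy (by simp) f⟩

end Vale.Agent.P150.Beta1
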