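import Vale.Agent.P150.Beta1.Defs

/-!
# The consequences of the rule used by the profile (pass one)

Tests of increments at a field `y` against functions of the iterates at any other field `y'`, with a
scalar multiplier of small gradient; the energy step; the gradient bound of the iterates.
-/

namespace Vale.Agent.P150.Beta1

open Finset Real

/-- A scalar observable bounded by one with gradient of squared size `C / n`. -/
def SlowScalar {n : ℕ} (C : ℝ) (s : (Fin n → Bool) → ℝ) : Prop :=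
  ∀ x, |s x| ≤ 1 ∧ n * ∑ j, deriv2 j s x ^ 2 ≤ C

/-- Increments are orthogonal to functions of later iterates, also through one coupling matrix. -/
def TestsStatement (β : ℝ) : Prop :=
  ∀ k : ℕ, ∃ m : ℕ, ∀ C, ∃ C', ∀ (n : ℕ) (J : Fin n → Fin n → ℝ) (y y' : Fin n → ℝ)
      (F s : (Fin n → Bool) → ℝ) (φ φ₁ φ₂ : ℝ → ℝ),
    GoodWords β m C J → (∀ x, 0 < F x) → SlowScalar C s →
    (∀ t, HasDerivAt φ (φ₁ t) t ∧ HasDerivAt φ₁ (φ₂ t) t ∧ |φ₁ t| ≤ C ∧ |φ₂ t| ≤ C) →
    (∀ x, ∑ i, φ (ampZ β J y' (spins x) k i) ^ 2 ≤ C * n) →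
    ∀ j, j ≤ k →
      |tmean (gibbs J y) F
          (fun x => s x * ∑ i, φ (ampZ β J y' (spins x) k i) * ampD β J y (spins x) j i)|
        ≤ C' * √n * √(tdir (gibbs J y) F + 1) ∧
      (j < k → |tmean (gibbs J y) F (fun x => s x * ∑ i,
            act J (fun l => φ (ampZ β J y' (spins x) k l)) i * ampD β J y (spins x) j i)|
        ≤ C' * √n * √(tdir (gibbs J y) F + 1))

/-- The only pairing that is not orthogonal: the step of the energy. -/
def EnergyStepStatement (β : ℝ) : Prop :=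
  ∀ k : ℕ, ∃ m : ℕ, ∀ C, ∃ C', ∀ (n : ℕ) (J : Fin n → Fin n → ℝ) (y : Fin n → ℝ)
      (F : (Fin n → Bool) → ℝ),
    GoodWords β m C J → (∀ x, 0 < F x) →
      |tmean (gibbs J y) F (fun x =>
          (∑ i, act J (ampA β J y (spins x) (k + 1)) i * ampD β J y (spins x) k i)
            - n * (onsager β (ampA β J y (spins x) (k + 1))
                * (qav (ampA β J y (spins x) k) - qav (ampA β J y (spins x) (k + 1)))))|
        ≤ C' * √n * √(tdir (gibbs J y) F + 1)

/-- The discrete gradient of an iterate is a bounded operator. -/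
def GradStatement (β : ℝ) : Prop :=
  ∀ k : ℕ, ∃ m : ℕ, ∀ C, ∃ C', ∀ (n : ℕ) (J : Fin n → Fin n → ℝ) (y a : Fin n → ℝ)
      (x : Fin n → Bool),
    GoodWords β m C J →
      ∑ j, (∑ i, a i * deriv2 j (fun z => ampZ β J y (spins z) k i) x) ^ 2 ≤ C' * ∑ i, a i ^ 2

end Vale.Agent.P150.Beta1
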