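import Vale.Agent.P150.Beta1.PassTwo.Setup
import Vale.Agent.P150.Beta1.PassTwo.Top
import Vale.Agent.P150.Beta1.PassTwo.Far
import Vale.Agent.P150.Beta1.PassTwo.TrapCutoff

/-!
# Pass two: the weak Poincaré inequality and the defective inequality

Along the localisation, on a deterministic grid, almost every time has few bad fields; there the
rates are controlled by stability, and at the last time the fields are large.
-/

namespace Vale.Agent.P150.Beta1

open MeasureTheory ProbabilityTheory Finset Function Filter Real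
open PassTwo
open Local (wgt fld p0)
open scoped ENNReal Topology

variable {n : ℕ}

/-- A slow cutoff of small mean, against entropy. -/
lemma PassTwo.cutoff_le {J : Fin n → Fin n → ℝ} (hsymm : ∀ i j, J i j = J j i)
    (hdiag : ∀ i, J i i = 0) {c Ct M : ℝ} (hc : 0 < c) (hCt : 0 ≤ Ct)
    (hn : log 2 ≤ c / 16 * n) (hn0 : 0 < n) (htiny : (n : ℝ) * exp (-(c / 4 * n)) ≤ 1)
    (ht : ∀ F : (Fin n → Bool) → ℝ, (∀ x, 0 < F x) → ent (gibbs J 0) F
      ≤ Ct * dirichlet (gibbs J 0) (fun x => √(F x)) + c / 16 * n * mean (gibbs J 0) F)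
    {p : (Fin n → Bool) → ℝ} (hp : ∀ x, p x ∈ Set.Icc (0 : ℝ) 1) (hM0 : 0 ≤ M)
    (hM : ∀ x, ∑ j, deriv2 j (fun z => √(p z)) x ^ 2 ≤ M)
    (hsmall : mean (gibbs J 0) p ≤ exp (-(c / 2 * n)))
    {F : (Fin n → Bool) → ℝ} (hF : ∀ x, 0 < F x) :
    n * mean (gibbs J 0) (fun x => F x * p x)
      ≤ (32 * Ct / c * (1 + 2 * M) + 2)
        * (∑ i, siteEnt (gibbs J 0) i F + mean (gibbs J 0) F) := by
  have hρ : IsWeight (gibbs J (0 : Fin n → ℝ)) := IsWeight.gibbs J 0
  have hn' : (0 : ℝ) < n := Nat.cast_pos.2 hn0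
  set q := c / 2 * n / 2 - log 2 - c / 16 * n with hq
  have hq0 : c / 8 * n ≤ q := by rw [hq]; linarith
  have hcn : 0 < c / 8 * n := by positivity
  have h := mean_mul_cutoff_le hsymm hdiag hCt ht hp hM hsmall hF (hcn.trans_le hq0)
  rw [← hq, show c / 2 * (n : ℝ) / 2 = c / 4 * n by ring] at h
  set X := mean (gibbs J 0) (fun x => F x * p x)
  set D := dirichlet (gibbs J 0) (fun x => √(F x))
  set S := ∑ i, siteEnt (gibbs J 0) i F
  set mF := mean (gibbs J 0) F
  have hD : D ≤ S := dirichlet_sqrt_le_siteEnt hρ hF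
  have hS0 : 0 ≤ S := sum_nonneg fun i _ => siteEnt_nonneg hρ hF i
  have hD0 : 0 ≤ D := dirichlet_nonneg' hsymm hdiag _
  have hm0 : 0 < mF := mean_pos hρ hF
  set Y := X - 2 * exp (-(c / 4 * n)) * mF with hY
  have h1 : c / 8 * n * Y ≤ 4 * Ct * (D + 2 * M * mF) := by
    rcases le_total Y 0 with h0 | h0
    · exact (mul_nonpos_of_nonneg_of_nonpos hcn.le h0).trans (by positivity)
    · refine (mul_le_mul_of_nonneg_right hq0 h0).trans ?_
      rw [hY]
      linarith
  have h2 : (n : ℝ) * Y ≤ 32 * Ct / c * (D + 2 * M * mF) := by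
    refine le_of_mul_le_mul_left ?_ (show 0 < c / 8 by positivity)
    refine (le_of_eq (by ring)).trans (h1.trans (le_of_eq ?_))
    field_simp
    ring
  have h3 : D + 2 * M * mF ≤ (1 + 2 * M) * (S + mF) := by
    linarith [mul_nonneg hM0 hS0]
  have h4 := mul_le_mul_of_nonneg_left h3 (show 0 ≤ 32 * Ct / c by positivity)
  have h5 := mul_le_mul_of_nonneg_right htiny hm0.le
  have h6 : (n : ℝ) * X = n * Y + 2 * (n * exp (-(c / 4 * n)) * mF) := by rw [hY]; ring
  rw [h6]
  linarith

/-- Weak Poincaré inequality from stability, the fields and the large fields. -/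
theorem weakPoincareStatement_of {β : ℝ} (hFi : FieldsStatement β) (hS : StabilityStatement β)
    (hL : LargeFieldStatement β) : WeakPoincareStatement β := by
  obtain ⟨A, hA, εL, hεL, KL, -, κL, hκL, hL⟩ := hL
  set T := 2 * A + 32 + 256 / εL with hTdef
  have hT : 0 < T := by have : 0 < 256 / εL := by positivity
                        linarith
  obtain ⟨κ, η, gmax, ρ, K, C, c, hη, hg, hρ, -, hC, hc, hS, hFi⟩ := setup hFi hS hT
  set K' := 2 * exp ((1 + 12 * C) / 2) with hK'
  choose N hN hN1 hN2 hN3 using fun n : ℕ => exists_grid (T := T)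
    (C := Local.stepC (spins : (Fin n → Bool) → Fin n → ℝ)) (L := K') (exp_pos (-(n : ℝ)))
  set m : ∀ n : ℕ, ℕ → (Fin n × Fin n → ℝ) → ℝ := fun n k g => mean (p0 (skCoupling β g))
    (badMean β κ η gmax (ρ / 8) K (exp (-(c * n))) (k * (T / N n)) (skCoupling β g)) with hm
  have hmany : ∀ᶠ n : ℕ in atTop, Measure.pi (fun _ : Fin n × Fin n => gaussianReal 0 1)
      (manyBad (m n) (exp (-(c * n))) (exp (-(c / 2 * n))) (N n))
      ≤ ENNReal.ofReal (exp (-(c / 2 * n))) := hFi.mono fun n hn => manyBad_le (hN n) fun k hk =>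
    hn _ ⟨by positivity, by
      rw [← mul_div_assoc, div_le_iff₀ (Nat.cast_pos.2 (hN n)), mul_comm T]
      exact mul_le_mul_of_nonneg_right (Nat.cast_le.2 hk.le) hT.le⟩
  set c' := min c 1 / 4 with hc'
  have hc'0 : 0 < c' := div_pos (lt_min hc one_pos) four_pos
  set E := exp (2 * K' * T) with hE
  refine ⟨E * (1 / κL), c', hc'0, tendsto_of_sdiff hS (tendsto_union
    (tendsto_compl_zero (fun n => measurableSet_largeEvent β A εL KL κL) hL)
    (tendsto_of_exp_bound (by positivity) hmany)) ?_⟩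
  filter_upwards [eventually_small hc, eventually_tiny (18 * E * (1 + T)) hc'0]
    with n hsmall htiny
  rintro g ⟨hst, hbad⟩ f R hf
  simp only [Set.mem_union, Set.mem_compl_iff, not_or, not_not] at hbad
  obtain ⟨hlarge, hgrid⟩ := hbad
  set J := skCoupling β g
  have hsymm : ∀ i j, J i j = J j i := skCoupling_symm β g
  have hdiag : ∀ i, J i i = 0 := skCoupling_self β g
  have hR : 0 ≤ R := (abs_nonneg _).trans (hf fun _ => true)
  have hD0 : 0 ≤ dirichlet (gibbs J 0) f := dirichlet_nonneg' hsymm hdiag f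
  rcases hR.eq_or_lt with hR0 | hR0
  · have hf0 : ∀ x, f x = 0 := fun x => abs_nonpos_iff.1 ((hf x).trans hR0.ge)
    simp only [Vale.Agent.P150.variance, mean, hf0, mul_zero, sum_const_zero, sub_zero, ne_eq,
      OfNat.ofNat_ne_zero, not_false_eq_true, zero_pow]
    positivity
  set f' := fun x => f x + 2 * R with hf'
  have hf'pos : ∀ x, 0 < f' x := fun x => by
    have := (abs_le.1 (hf x)).1
    simp only [hf']
    linarith
  have hf'3 : ∀ x, |f' x| ≤ 3 * R := fun x => by
    rw [abs_of_pos (hf'pos x)]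
    simp only [hf']
    linarith [(abs_le.1 (hf x)).2]
  have hvar : Vale.Agent.P150.variance (gibbs J 0) f'
      = Vale.Agent.P150.variance (gibbs J 0) f := by
    simp only [hf', Vale.Agent.P150.variance, mean, mul_add, sum_add_distrib, ← sum_mul, gibbs_sum,
      one_mul, add_sub_add_right_eq_sub]
  have hdir : dirichlet (gibbs J 0) f' ≤ dirichlet (gibbs J 0) f :=
    dirichlet_le_of_deriv2 hsymm hdiag fun i x => le_of_eq (by simp [hf'])
  have hstep : ∀ v h, 0 ≤ v → 0 ≤ h → h ≤ 1 →
      |Local.hVar J f' (v + h) - (Local.hVar J f' v - h * Local.covRate J f' v)|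
      ≤ 9 * R ^ 2 * Local.stepC (spins : (Fin n → Bool) → Fin n → ℝ) * (h * √h) := by
    intro v h hv hh h1
    refine (Local.hVar_step_pos J hf'pos hv hh h1).trans (mul_le_mul_of_nonneg_right
      (mul_le_mul_of_nonneg_right ?_ (stepC_nonneg _)) (by positivity))
    calc mean (p0 J) (fun x => f' x ^ 2) ≤ ∑ x, p0 J x * (9 * R ^ 2) :=
          sum_le_sum fun x _ => mul_le_mul_of_nonneg_left (by
            beta_reduce
            have := pow_le_pow_left₀ (abs_nonneg _) (hf'3 x) 2
            rw [sq_abs] at this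
            linarith) (Local.p0_pos J x).le
      _ = _ := by rw [← sum_mul, show ∑ x, p0 J x = 1 from gibbs_sum, one_mul]
  set θ := exp (-(c / 2 * n)) with hθ
  set p := exp (-(c * n)) with hp
  have hm1 : ∀ k, m n k g ∈ Set.Icc (0 : ℝ) 1 := fun k => by
    refine ⟨sum_nonneg fun x _ => mul_nonneg (Local.p0_pos J x).le (badMean_mem hη hg x).1,
      le_of_le_of_eq (sum_le_sum fun x _ => mul_le_of_le_one_right (Local.p0_pos J x).le
        (badMean_mem hη hg x).2) gibbs_sum⟩
  have hsum : ∑ k ∈ range (N n), m n k g ≤ (N n : ℝ) * p + θ * N n := by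
    refine le_trans (sum_le_sum (g := fun k => p + {g' | p < m n k g'}.indicator
      (fun _ => (1:ℝ)) g) fun k _ => ?_) ?_
    · by_cases hk : p < m n k g
      · rw [Set.indicator_of_mem (show g ∈ {g' | p < m n k g'} from hk)]
        linarith [(hm1 k).2, exp_pos (-(c * n))]
      · rw [Set.indicator_of_notMem (show g ∉ {g' | p < m n k g'} from hk), add_zero]
        exact not_lt.1 hk
    · rw [sum_add_distrib, sum_const, card_range, nsmul_eq_mul]
      exact add_le_add le_rfl (not_lt.1 hgrid)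
  have hD'0 : 0 ≤ dirichlet (gibbs J 0) f' := dirichlet_nonneg' hsymm hdiag f'
  have main := grid_gronwall (F := fun u => Local.hVar J f' u) (G := fun u => Local.covRate J f' u)
    (C := 9 * R ^ 2 * Local.stepC (spins : (Fin n → Bool) → Fin n → ℝ))
    (A := 1 / κL * dirichlet (gibbs J 0) f' + (3 * R) ^ 2 * exp (-(7 * (n : ℝ))))
    (B := fun k => n * (3 * R) ^ 2 * m n k g) hT.le (hN n) (hN1 n) (c := K') (by positivity) (hN2 n)
    (mul_nonneg (by positivity) (stepC_nonneg _))
    (add_nonneg (mul_nonneg (one_div_pos.2 hκL).le hD'0) (by positivity))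
    (fun k => mul_nonneg (by positivity) (hm1 k).1) hstep
    (fun k _ => covRate_le (by positivity) hη hg hsymm hdiag hst hC (by positivity) (by linarith)
      hsmall hf'3)
    (hVar_top_le (fun y hy => (hlarge y hy).2) hκL hA.le hεL hTdef.ge hf'3)
  rw [Local.hVar_zero, hvar, ← hE, ← mul_sum] at main
  have hN' : (0 : ℝ) < N n := Nat.cast_pos.2 (hN n)
  set w := exp (-(2 * c' * n)) with hw
  have hexp : ∀ a, 2 * c' ≤ a → exp (-(a * n)) ≤ w := fun a ha =>
    exp_le_exp.2 (neg_le_neg (mul_le_mul_of_nonneg_right ha (Nat.cast_nonneg n)))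
  have e1 : T / N n * (n * (3 * R) ^ 2 * ∑ k ∈ range (N n), m n k g)
      ≤ 9 * R ^ 2 * (2 * T * n * w) := by
    have h1 : p + θ ≤ 2 * w := by
      have h2 := hexp c (by simp only [hc']; linarith [min_le_left c 1])
      have h3 := hexp (c / 2) (by simp only [hc']; linarith [min_le_left c 1])
      simp only [hp, hθ]
      linarith
    calc T / N n * (n * (3 * R) ^ 2 * ∑ k ∈ range (N n), m n k g)
        ≤ T / N n * (n * (3 * R) ^ 2 * ((N n : ℝ) * (p + θ))) := by
          refine mul_le_mul_of_nonneg_left (mul_le_mul_of_nonneg_left ?_ (by positivity))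
            (by positivity)
          linarith
      _ = 9 * R ^ 2 * (T * n * (p + θ)) := by field_simp; ring
      _ ≤ 9 * R ^ 2 * (T * n * (2 * w)) := by gcongr
      _ = _ := by ring
  have e2 : T * (9 * R ^ 2 * Local.stepC (spins : (Fin n → Bool) → Fin n → ℝ) * √(T / N n))
      ≤ 9 * R ^ 2 * w := by
    calc _ = 9 * R ^ 2 * (T * (Local.stepC (spins : (Fin n → Bool) → Fin n → ℝ) * √(T / N n))) := by
          ring
      _ ≤ _ := mul_le_mul_of_nonneg_left ((hN3 n).trans (le_trans (le_of_eq (by rw [one_mul]))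
          (hexp 1 (by simp only [hc']; linarith [min_le_right c 1])))) (by positivity)
  have e3 : (3 * R) ^ 2 * exp (-(7 * (n : ℝ))) ≤ 9 * R ^ 2 * w := by
    refine le_trans (le_of_eq (by ring)) (mul_le_mul_of_nonneg_left
      (hexp 7 (by simp only [hc']; linarith [min_le_right c 1])) (by positivity))
  have e4 : E * (9 * R ^ 2 * (2 * w + 2 * T * n * w)) ≤ R ^ 2 * exp (-(c' * n)) := by
    have hw2 : w = exp (-(c' * n)) * exp (-(c' * n)) := by rw [hw, ← exp_add]; ring_nf
    calc E * (9 * R ^ 2 * (2 * w + 2 * T * n * w))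
        ≤ 18 * E * (1 + T) * (n + 1) * R ^ 2 * w := by
          have h0 : 0 ≤ E * R ^ 2 * w := by positivity
          have := mul_nonneg h0 hT.le
          have := mul_nonneg h0 (Nat.cast_nonneg (α := ℝ) n)
          linarith
      _ = 18 * E * (1 + T) * (n + 1) * exp (-(c' * n)) * (R ^ 2 * exp (-(c' * n))) := by
          rw [hw2]; ring
      _ ≤ _ := mul_le_of_le_one_left (by positivity) htiny
  have hE0 : 0 < E := exp_pos _
  have e5 := mul_le_mul_of_nonneg_left (add_le_add (add_le_add e3 e1) e2) hE0.le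
  have e6 := mul_le_mul_of_nonneg_left hdir (show 0 ≤ E * (1 / κL) by positivity)
  linarith

/-- The rate of entropy at a time with few bad fields. -/
lemma PassTwo.entRate_good {β κ η gmax ρ C c T D Ct u : ℝ} {K : ℕ} {J : Fin n → Fin n → ℝ}
    (hsymm : ∀ i j, J i j = J j i) (hdiag : ∀ i, J i i = 0)
    (hu : 0 ≤ u) (huT : exp (4 * u) ≤ exp (4 * T)) (hη : 0 < η) (hg : 1 + η ≤ gmax) (hρ : 0 < ρ)
    (hC : 0 ≤ C) (hc : 0 < c) (hD : 0 ≤ D) (hn0 : 0 < n)
    (hst : StableAt β κ η gmax ρ K C J)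
    (hsmall : (n : ℝ) * (exp (2 * √n) * exp (-(c * n))) ≤ 1)
    (htiny4 : (n : ℝ) * exp (-(c / 4 * n)) ≤ 1) (hlog : log 2 ≤ c / 16 * n)
    (hp2 : 2 * exp (-(c * n)) ≤ exp (-(c / 2 * n))) (hbig2 : 3 * C ≤ ρ ^ 2 * n / 64)
    (ht : ∀ G : (Fin n → Bool) → ℝ, (∀ x, 0 < G x) → ent (gibbs J 0) G
      ≤ |Ct| * dirichlet (gibbs J 0) (fun x => √(G x)) + c / 16 * n * mean (gibbs J 0) G)
    (hflip : ∀ j ∈ Icc K (K + 2), ∀ l y x,
      (farObs β ρ J j (PassTwo.flip x l) y - farObs β ρ J j x y) ^ 2 ≤ D / n)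
    (hkm : mean (p0 J) (badMean β κ η gmax (ρ / 8) K (exp (-(c * n))) u J) ≤ exp (-(c * n)))
    {F : (Fin n → Bool) → ℝ} (hF : ∀ x, 0 < F x) :
    Local.entRate J F u
      ≤ (4 * C + 4 * ((C + 2) * (32 * |Ct| / c * (1 + 2 * (exp (4 * T) + D)) + 2)))
        * (∑ i, siteEnt (gibbs J 0) i F + mean (gibbs J 0) F) := by
  set p := exp (-(c * n)) with hp
  set M := exp (4 * T) + D with hM
  set L := 32 * |Ct| / c * (1 + 2 * M) + 2 with hLdef
  set S := ∑ i, siteEnt (gibbs J 0) i F
  set mF := mean (gibbs J 0) F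
  have hS0 : 0 ≤ S := sum_nonneg fun i _ => siteEnt_nonneg (IsWeight.gibbs _ _) hF i
  have hM0 : 0 ≤ M := add_nonneg (exp_pos _).le hD
  have hn' : (0 : ℝ) < n := Nat.cast_pos.2 hn0
  set H := farObs β ρ J
  have hone : ∀ j x y (m : Fin n → ℝ),
      ∑ i, ((mean (gibbs J y) fun z => spins z i) - m i) ^ 2 ≤ 3 * C →
      ρ ^ 2 * n < ∑ i, (ampA β J y (spins x) j i - m i) ^ 2 → H j x y = 1 :=
    fun j x y m h h' => farObs_eq_one hρ (h.trans hbig2) h'
  have hpos : ∀ j x y (m : Fin n → ℝ),
      ∑ i, ((mean (gibbs J y) fun z => spins z i) - m i) ^ 2 ≤ 3 * C → 0 < H j x y →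
      (ρ / 8) ^ 2 * n < ∑ i, (ampA β J y (spins x) j i - m i) ^ 2 :=
    fun j x y m h h' => far_of_farObs_pos hρ (h.trans hbig2) h'
  have hle : ρ / 8 ≤ ρ := by linarith
  have h1 : Local.entRate J F u ≤ C * S + 4 * C * mF + (C + 2) * n
      * mean (gibbs J 0) (fun x => F x * (badMean β κ η gmax (ρ / 8) K p u J x
        + ∑ j ∈ Icc K (K + 2), obsMean H j u x)) :=
    entRate_le hu hη hg hsymm hdiag hst hC (by positivity) hle hsmall measurable_farObs
      farObs_mem hone hF
  have hb : (n : ℝ) * mean (gibbs J 0) (fun x => F x * badMean β κ η gmax (ρ / 8) K p u J x)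
      ≤ L * (S + mF) := by
    refine cutoff_le hsymm hdiag hc (abs_nonneg Ct) hlog hn0 htiny4 ht (badMean_mem hη hg) hM0 (fun x => ?_)
      (hkm.trans (by linarith [exp_pos (-(c * n))])) hF
    have h2 := sum_deriv2_sqrt_le hu (D := 0)
      (h := fun _ g => (PassTwo.badSet β κ η gmax (ρ / 8) K p J).indicator 1 (fld u g))
      (fun _ => measurable_badInd hη hg) (fun _ g => badInd_mem _) (fun _ _ _ => by simp) x
    have e : badMean β κ η gmax (ρ / 8) K p u J = fun z => plantedMean u
        (fun g => (PassTwo.badSet β κ η gmax (ρ / 8) K p J).indicator 1 (fld u g) ^ 2) z := by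
      funext z
      simp only [badMean]
      congr 1
      funext g
      by_cases hy : fld u g ∈ PassTwo.badSet β κ η gmax (ρ / 8) K p J <;> simp [hy]
    rw [e]
    exact h2.trans (by linarith [zero_mul (Fintype.card (Fin n) : ℝ)])
  have hobs : ∀ j ∈ Icc K (K + 2),
      (n : ℝ) * mean (gibbs J 0) (fun x => F x * obsMean H j u x) ≤ L * (S + mF) := by
    intro j hj
    refine cutoff_le hsymm hdiag hc (abs_nonneg Ct) hlog hn0 htiny4 ht (fun x => ?_) hM0 (fun x => ?_) ?_ hF
    · exact plantedMean_mem (((measurable_farObs j x).comp (continuous_fld u).measurable).pow_const 2)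
        (fun g => ⟨sq_nonneg _, pow_le_one₀ (farObs_mem j x _).1 (farObs_mem j x _).2⟩) x
    · refine (sum_deriv2_sqrt_le hu (D := D / n) (h := fun z g => H j z (fld u g))
        (fun z => (measurable_farObs j z).comp (continuous_fld u).measurable)
        (fun z g => farObs_mem j z _) (fun z l g => hflip j hj l _ z) x).trans ?_
      rw [Fintype.card_fin, div_mul_cancel₀ _ hn'.ne']
      linarith
    · have h2 : mean (gibbs J 0) (obsMean H j u)
          ≤ mean (gibbs J 0) (badMean β κ η gmax (ρ / 8) K p u J) + p :=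
        obsMass_le hu hη hg hsymm hdiag hst hC (by positivity) hle hsmall (exp_pos _).le
          measurable_farObs farObs_mem hpos hj
      have h3 : mean (gibbs J 0) (badMean β κ η gmax (ρ / 8) K p u J) ≤ p := hkm
      linarith
  have h2 : (n : ℝ) * mean (gibbs J 0) (fun x => F x * (badMean β κ η gmax (ρ / 8) K p u J x
      + ∑ j ∈ Icc K (K + 2), obsMean H j u x)) ≤ 4 * (L * (S + mF)) := by
    have e : mean (gibbs J 0) (fun x => F x * (badMean β κ η gmax (ρ / 8) K p u J x
        + ∑ j ∈ Icc K (K + 2), obsMean H j u x))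
        = mean (gibbs J 0) (fun x => F x * badMean β κ η gmax (ρ / 8) K p u J x)
          + ∑ j ∈ Icc K (K + 2), mean (gibbs J 0) (fun x => F x * obsMean H j u x) := by
      simp only [mean, mul_add, sum_add_distrib, mul_sum]
      rw [sum_comm (s := Icc K (K + 2))]
    rw [e, mul_add, mul_sum]
    refine (add_le_add hb (sum_le_sum hobs)).trans (le_of_eq ?_)
    rw [sum_const, Nat.card_Icc, show K + 2 + 1 - K = 3 by omega, nsmul_eq_mul]
    ring
  have h3 := mul_le_mul_of_nonneg_left h2 (show 0 ≤ C + 2 by linarith)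
  have h4 := mul_nonneg hC hS0
  linarith

/-- The defective inequality from stability, the fields, the large fields, the words and the
absence of traps. -/
theorem defectiveStatement_of {β : ℝ} (hβ : 0 ≤ β) (hβ1 : β ≤ 1) (hFi : FieldsStatement β)
    (hS : StabilityStatement β) (hL : LargeFieldStatement β) (hW : WordsStatement β)
    (hTr : TrapStatement β) : DefectiveStatement β := by
  obtain ⟨A, hA, εL, hεL, KL, hKL, κL, -, hL⟩ := hL
  set T := 2 * A + 32 + 256 / εL with hTdef
  have hT : 0 < T := by have : 0 < 256 / εL := by positivity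
                        linarith
  obtain ⟨κ, η, gmax, ρ, K, C, c, hη, hg, hρ, hK, hC, hc, hS, hFi⟩ := setup hFi hS hT
  obtain ⟨m0, hfl0⟩ := farObs_flip β hρ hK
  obtain ⟨m1, hfl1⟩ := farObs_flip β hρ (j := K + 1) (by omega)
  obtain ⟨m2, hfl2⟩ := farObs_flip β hρ (j := K + 2) (by omega)
  obtain ⟨W0, hW0⟩ := hW m0
  obtain ⟨W1, hW1⟩ := hW m1
  obtain ⟨W2, hW2⟩ := hW m2
  obtain ⟨D0, hD0, hfl0⟩ := hfl0 W0
  obtain ⟨D1, hD1, hfl1⟩ := hfl1 W1
  obtain ⟨D2, hD2, hfl2⟩ := hfl2 W2
  obtain ⟨Ct, hTr⟩ := hTr (c / 16) (by positivity)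
  choose N hN hN1 hN2 hN3 using fun n : ℕ => exists_grid (T := T)
    (C := Local.stepC (spins : (Fin n → Bool) → Fin n → ℝ)) (L := 0) (exp_pos (-(n : ℝ)))
  set m : ∀ n : ℕ, ℕ → (Fin n × Fin n → ℝ) → ℝ := fun n k g => mean (p0 (skCoupling β g))
    (badMean β κ η gmax (ρ / 8) K (exp (-(c * n))) (k * (T / N n)) (skCoupling β g)) with hm
  have hmany : ∀ᶠ n : ℕ in atTop, Measure.pi (fun _ : Fin n × Fin n => gaussianReal 0 1)
      (manyBad (m n) (exp (-(c * n))) (exp (-(c / 2 * n))) (N n))
      ≤ ENNReal.ofReal (exp (-(c / 2 * n))) := hFi.mono fun n hn => manyBad_le (hN n) fun k hk =>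
    hn _ ⟨by positivity, by
      rw [← mul_div_assoc, div_le_iff₀ (Nat.cast_pos.2 (hN n)), mul_comm T]
      exact mul_le_mul_of_nonneg_right (Nat.cast_le.2 hk.le) hT.le⟩
  have hwords : ∀ {k : ℕ} {W : ℝ}, (∀ᶠ n : ℕ in atTop,
      Measure.pi (fun _ : Fin n × Fin n => gaussianReal 0 1)
        {g | ¬GoodWords β k W (skCoupling β g)} ≤ ENNReal.ofReal (exp (-(n : ℝ)))) →
      Tendsto (fun n : ℕ => Measure.pi (fun _ : Fin n × Fin n => gaussianReal 0 1)
        {g | ¬GoodWords β k W (skCoupling β g)}) atTop (𝓝 0) := fun {k W} h =>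
    tendsto_of_exp_bound one_pos (h.mono fun n hn => by rwa [one_mul])
  set D := max D0 (max D1 D2)
  set M := exp (4 * T) + D with hM
  set L := 32 * |Ct| / c * (1 + 2 * M) + 2 with hLdef
  set L' := 4 * C + 4 * ((C + 2) * L) with hL'
  refine ⟨KL + 1 + T * L' + 2 * T + 2, tendsto_of_sdiff hS (tendsto_union (tendsto_union
    (tendsto_compl_zero (fun n => measurableSet_largeEvent β A εL KL κL) hL)
    (tendsto_compl_zero (fun n => measurableSet_trapEvent β Ct (c / 16)) hTr)) (tendsto_union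
    (tendsto_union (hwords hW0) (tendsto_union (hwords hW1) (hwords hW2))) (tendsto_union
    (tendsto_compl_zero (fun n => measurableSet_normEvent β 3) (tendsto_of_disorderEvent hβ
      (show (0:ℝ) < 1 / 4 by norm_num) (by norm_num) (Eventually.of_forall fun n g hg a =>
        (hg.2.2 a).trans (mul_le_mul_of_nonneg_right
          (by linarith) (sum_nonneg fun i _ => sq_nonneg _)))))
    (tendsto_of_exp_bound (by positivity) hmany)))) ?_⟩
  filter_upwards [eventually_small hc, eventually_tiny 1 (show 0 < c / 4 by positivity),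
    eventually_tiny 1 (show 0 < c / 2 by positivity),
    eventually_ge_atTop ⌈16 / c + 192 * C / ρ ^ 2⌉₊, eventually_gt_atTop 0]
    with n hsmall htiny4 htiny2 hnbig hn0
  rintro g ⟨hst, hbad⟩ F hF
  simp only [Set.mem_union, Set.mem_compl_iff, Set.mem_ofPred_eq, not_or, not_not] at hbad
  obtain ⟨⟨hlarge, htrap⟩, ⟨hw0, hw1, hw2⟩, hnorm, hgrid⟩ := hbad
  set J := skCoupling β g
  have hsymm : ∀ i j, J i j = J j i := skCoupling_symm β g
  have hdiag : ∀ i, J i i = 0 := skCoupling_self β g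
  have hn' : (0 : ℝ) < n := Nat.cast_pos.2 hn0
  have hbig := (Nat.le_ceil _).trans (Nat.cast_le.2 hnbig)
  have hbig1 : 16 ≤ c * n := by
    have : 16 / c ≤ n := le_trans (le_add_of_nonneg_right (by positivity)) hbig
    rwa [div_le_iff₀' hc] at this
  have hbig2 : 3 * C ≤ ρ ^ 2 * n / 64 := by
    have : 192 * C / ρ ^ 2 ≤ n := le_trans (le_add_of_nonneg_left (by positivity)) hbig
    rw [div_le_iff₀' (by positivity)] at this
    linarith
  have hlog : log 2 ≤ c / 16 * n := by
    linarith [log_le_sub_one_of_pos (zero_lt_two' ℝ)]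
  have ht : ∀ G : (Fin n → Bool) → ℝ, (∀ x, 0 < G x) → ent (gibbs J 0) G
      ≤ |Ct| * dirichlet (gibbs J 0) (fun x => √(G x)) + c / 16 * n * mean (gibbs J 0) G :=
    fun G hG => (htrap G hG).trans (add_le_add (mul_le_mul_of_nonneg_right (le_abs_self Ct)
      (dirichlet_nonneg' hsymm hdiag _)) le_rfl)
  have hDnn : 0 ≤ D := hD0.trans (le_max_left _ _)
  have hflip : ∀ j ∈ Icc K (K + 2), ∀ l y x,
      (farObs β ρ J j (PassTwo.flip x l) y - farObs β ρ J j x y) ^ 2 ≤ D / n := by
    intro j hj l y x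
    rw [Finset.mem_Icc] at hj
    rcases (show j = K ∨ j = K + 1 ∨ j = K + 2 by omega) with rfl | rfl | rfl
    · exact (hfl0 n J hw0 l y x).trans (div_le_div_of_nonneg_right (le_max_left _ _) hn'.le)
    · exact (hfl1 n J hw1 l y x).trans (div_le_div_of_nonneg_right
        ((le_max_left _ _).trans (le_max_right _ _)) hn'.le)
    · exact (hfl2 n J hw2 l y x).trans (div_le_div_of_nonneg_right
        ((le_max_right _ _).trans (le_max_right _ _)) hn'.le)
  set S := ∑ i, siteEnt (gibbs J 0) i F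
  set mF := mean (gibbs J 0) F
  have hS0 : 0 ≤ S := sum_nonneg fun i _ => siteEnt_nonneg (IsWeight.gibbs _ _) hF i
  have hm0 : 0 < mF := mean_pos (IsWeight.gibbs _ _) hF
  have hM0 : 0 ≤ M := add_nonneg (exp_pos _).le hDnn
  have hL0 : 0 ≤ L := by rw [hLdef]; positivity
  set p := exp (-(c * n)) with hp
  set θ := exp (-(c / 2 * n)) with hθ
  have hp2 : 2 * p ≤ θ := by
    have h2 : 2 ≤ exp (c / 2 * n) := le_trans (by linarith) (add_one_le_exp _)
    calc 2 * p ≤ exp (c / 2 * n) * p := mul_le_mul_of_nonneg_right h2 (exp_pos _).le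
      _ = θ := by rw [hp, hθ, ← exp_add]; ring_nf
  have hgood : ∀ k < N n, m n k g ≤ p →
      Local.entRate J F (k * (T / N n)) ≤ L' * (S + mF) := by
    intro k hk hkm
    refine entRate_good hsymm hdiag (by positivity) (exp_le_exp.2 (mul_le_mul_of_nonneg_left ?_
      (by norm_num))) hη hg hρ hC hc hDnn hn0 hst hsmall (le_trans (mul_le_mul_of_nonneg_right
        (by linarith) (exp_pos _).le) htiny4) hlog hp2 hbig2 ht hflip hkm hF
    rw [← mul_div_assoc, div_le_iff₀ (Nat.cast_pos.2 (hN n)), mul_comm T]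
    exact mul_le_mul_of_nonneg_right (Nat.cast_le.2 hk.le) hT.le
  have hL'0 : 0 ≤ L' := by rw [hL']; positivity
  set ind := fun k => {g' | p < m n k g'}.indicator (fun _ => (1:ℝ)) g with hind
  have hind0 : ∀ k, 0 ≤ ind k := fun k => Set.indicator_nonneg (fun _ _ => zero_le_one) g
  have main := grid_gronwall (F := fun u => Local.hEntropy J F u)
    (G := fun u => Local.entRate J F u)
    (C := 2 * mF * Local.stepC (spins : (Fin n → Bool) → Fin n → ℝ)) (A := (KL + 1) * S)
    (B := fun k => L' * (S + mF) + 2 * n * mF * ind k) hT.le (hN n) (hN1 n) le_rfl (hN2 n)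
    (mul_nonneg (by positivity) (stepC_nonneg _)) (by positivity)
    (fun k => add_nonneg (by positivity) (mul_nonneg (by positivity) (hind0 k)))
    (fun v h hv hh h1 => Local.hEntropy_step J hF hv hh h1) (fun k hk => ?_)
    (hEntropy_top_le hnorm (fun y hy => (hlarge y hy).1) hKL hA.le hεL hTdef.ge hF)
  · rw [Local.hEntropy_zero] at main
    simp only [mul_zero, zero_mul, exp_zero, one_mul, sum_add_distrib, sum_const, card_range,
      nsmul_eq_mul, ← mul_sum] at main
    have hN' : (0 : ℝ) < N n := Nat.cast_pos.2 (hN n)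
    have hi : ∑ k ∈ range (N n), ind k ≤ θ * N n := not_lt.1 hgrid
    have htn : (n : ℝ) * θ ≤ 1 := le_trans (mul_le_mul_of_nonneg_right (by linarith)
      (exp_pos _).le) htiny2
    have e1 : T / N n * ((N n : ℝ) * (L' * (S + mF)) + 2 * n * mF * ∑ k ∈ range (N n), ind k)
        ≤ T * L' * (S + mF) + 2 * T * mF := by
      calc _ ≤ T / N n * ((N n : ℝ) * (L' * (S + mF)) + 2 * n * mF * (θ * N n)) := by
            refine mul_le_mul_of_nonneg_left (add_le_add le_rfl ?_) (by positivity)
            exact mul_le_mul_of_nonneg_left hi (by positivity)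
        _ = T * L' * (S + mF) + 2 * T * mF * (n * θ) := by field_simp
        _ ≤ _ := add_le_add le_rfl (mul_le_of_le_one_right (by positivity) htn)
    have e2 : T * (2 * mF * Local.stepC (spins : (Fin n → Bool) → Fin n → ℝ) * √(T / N n))
        ≤ 2 * mF := by
      calc _ = 2 * mF * (T * (Local.stepC (spins : (Fin n → Bool) → Fin n → ℝ) * √(T / N n))) := by
            ring
        _ ≤ _ := mul_le_of_le_one_right (by positivity)
            ((hN3 n).trans (exp_le_one_iff.2 (neg_nonpos.2 (Nat.cast_nonneg n))))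
    have := mul_nonneg hT.le hS0
    have := mul_nonneg hKL hm0.le
    linarith
  · rw [zero_mul, zero_add]
    rcases le_or_gt (m n k g) p with hkm | hkm
    · exact (hgood k hk hkm).trans (le_add_of_nonneg_right
        (mul_nonneg (by positivity) (hind0 k)))
    · refine le_trans (le_trans (entRate_le_crude (by positivity) hF) (le_of_eq ?_))
        (le_add_of_nonneg_left (by positivity))
      simp only [hind, Set.indicator_of_mem (show g ∈ {g' | p < m n k g'} from hkm), mul_one]
      rfl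

end Vale.Agent.P150.Beta1
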