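import Vale.Agent.P150.Beta1.Good

/-!
# What the stability module delivers to the assembly
-/

namespace Vale.Agent.P150.Beta1

open MeasureTheory ProbabilityTheory Finset Real Filter
open scoped Topology

open scoped Classical in
/-- At a field with a TAP point with an edge, the mean of every tilt is near that point, up to the
Dirichlet energy of the tilt and the mass of far configurations; with high probability in the
disorder, simultaneously for all fields and tilts. -/
def StabilityStatement (β : ℝ) : Prop :=
  ∃ G : ℝ, ∀ κ > 0, ∀ η > 0, ∀ gmax ≥ G, ∃ ρ₀ > 0, ∀ ρ > 0, ρ ≤ ρ₀ → ∃ K₀ : ℕ, ∀ K ≥ K₀, ∃ C,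
    Tendsto (fun n : ℕ => Measure.pi (fun _ : Fin n × Fin n => gaussianReal 0 1)
      {g | ∀ (y γ : Fin n → ℝ) (F : (Fin n → Bool) → ℝ), (∀ x, 0 < F x) →
        TapEdge β κ η gmax (skCoupling β g) y γ →
          ∑ i, (tmean (gibbs (skCoupling β g) y) F (fun x => spins x i) - tanh (γ i)) ^ 2
            ≤ C * (tdir (gibbs (skCoupling β g) y) F + 1)
              + C * n * tmean (gibbs (skCoupling β g) y) F
                  (fun x => if Near β (skCoupling β g) y (spins x) (tanhv γ) K ρ then (0 : ℝ) else 1)})
      atTop (𝓝 1)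

end Vale.Agent.P150.Beta1
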