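import Vale.Agent.P150.Main
import Vale.Agent.P150.Beta1.Assembly.Final
import Vale.Agent.P150.Beta1.PassTwo
import Vale.Agent.P150.Beta1.Profile.Main
import Vale.Agent.P150.Beta1.Radial.Proof
import Vale.Agent.P150.Beta1.Rule.Step
import Vale.Agent.P150.Beta1.Trap.Main
import Vale.Agent.P150.Beta1.LargeField
import Vale.Agent.P150.Beta1.Fields.Transfer
import Vale.Agent.P150.Beta1.Stability.Main

/-!
# Fast mixing for every `β < 1`, from the good fields and the stability of the mean

Below `1 / 2` the bound is the earlier one; above, the three inequalities of the two passes apply.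
-/

namespace Vale.Agent.P150.Beta1

open MeasureTheory ProbabilityTheory Filter

/-- No traps, for every `β < 1`. -/
theorem trapStatement {β : ℝ} (hβ : 0 ≤ β) (hβ1 : β < 1) : TrapStatement β :=
  Trap.trapStatement_of hβ hβ1
    (Profile.profileStatement_of hβ hβ1 (Rule.ruleStatement β) (Rule.testsStatement β)
      (Rule.gradStatement β) (radialStatement hβ hβ1))
    (Rule.testsStatement β) (Rule.energyStepStatement β) (radialStatement hβ hβ1)

/-- The full range, given the two remaining modules. -/
theorem fastMixing_of_modules
    (hFi : ∀ β : ℝ, 0 < β → β < 1 → FieldsStatement β)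
    (hS : ∀ β : ℝ, 0 < β → β < 1 → StabilityStatement β) : FastMixingStatement := by
  intro β hβ hβ1
  rcases lt_or_ge β (1 / 2) with h | h
  · obtain ⟨κ, hκ, C, hC, hlim⟩ := upper_bounds hβ h
    refine ⟨κ, hκ, C, hC, tendsto_of_tendsto_of_tendsto_of_le_of_le' hlim tendsto_const_nhds ?_
      (Eventually.of_forall fun n => prob_le_one)⟩
    exact Eventually.of_forall fun n => measure_mono fun g hg => ⟨hg.1 0, hg.2⟩
  · have hpos : 0 < β := lt_of_lt_of_le one_half_pos h
    have hT := trapStatement hβ hβ1
    have hL := largeFieldStatement hβ hβ1.le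
    exact fastMixing_at hβ hT (weakPoincareStatement_of (hFi β hpos hβ1) (hS β hpos hβ1) hL)
      (defectiveStatement_of hβ hβ1.le (hFi β hpos hβ1) (hS β hpos hβ1) hL (wordsStatement β) hT)

/-- Gap of order one and mixing in time `O(log n)` for every `β < 1`. -/
theorem fastMixing : FastMixingStatement :=
  fastMixing_of_modules (fun _ h0 h1 => fieldsStatement h0 h1)
    fun _ h0 h1 => Stability.stabilityStatement h0.le h1

end Vale.Agent.P150.Beta1
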