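import Mathlib
import Vale.Agent.P150.Edge

/-!
# Conditioning on a discrete Gaussian history

If an event `A` only sees the part of a standard Gaussian vector outside the range of an
orthogonal projection `q`, then on `A` the part inside that range may be resampled.
-/

namespace Vale.Agent.P150.Beta1

open MeasureTheory ProbabilityTheory Finset
open scoped ENNReal

variable {ι : Type*} [Fintype ι] [DecidableEq ι]

/-- Keep the component outside `q`, take the component inside `q` from `g'`. -/
def splice (q : ι → ι → ℝ) (g g' : ι → ℝ) : ι → ℝ := g - rowMap q g + rowMap q g'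

lemma rowMap_idem {q : ι → ι → ℝ} (hi : ∀ i j, ∑ k, q i k * q k j = q i j) (g : ι → ℝ) :
    rowMap q (rowMap q g) = rowMap q g := by
  funext i
  simp only [rowMap, mul_sum]
  rw [sum_comm]
  exact sum_congr rfl fun j _ => by simp only [← mul_assoc, ← sum_mul, hi]

lemma rowMap_add_sub (q : ι → ι → ℝ) (a b c : ι → ℝ) :
    rowMap q (a - b + c) = rowMap q a - rowMap q b + rowMap q c := by
  funext i
  simp only [rowMap, Pi.add_apply, Pi.sub_apply, mul_add, mul_sub, sum_add_distrib,
    sum_sub_distrib]

/-- Splicing two independent standard Gaussian vectors gives a standard Gaussian vector. -/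
lemma gauss_map_splice {q : ι → ι → ℝ} (hs : ∀ i j, q i j = q j i)
    (hi : ∀ i j, ∑ k, q i k * q k j = q i j) :
    ((gauss ι).prod (gauss ι)).map (fun z => splice q z.1 z.2) = gauss ι := by
  set R : ι → ι ⊕ ι → ℝ := fun i =>
    Sum.elim (fun k => (if i = k then (1:ℝ) else 0) - q i k) (fun k => q i k)
  have hR : ∀ i j, ∑ k, R i k * R j k = if i = j then (1:ℝ) else 0 := by
    intro i j
    have h2 : ∑ k, q i k * q j k = q i j := by
      rw [← hi i j]; exact sum_congr rfl fun k _ => by rw [hs j k]
    simp only [R, Fintype.sum_sum_type, Sum.elim_inl, Sum.elim_inr, sub_mul, mul_sub,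
      sum_sub_distrib, h2, ite_mul, mul_ite, one_mul, zero_mul, mul_one, mul_zero,
      sum_ite_eq, mem_univ, if_true]
    rw [hs j i]
    rcases eq_or_ne i j with rfl | h
    · simp
    · simp [h, h.symm]
  have hsum := measurePreserving_sumPiEquivProdPi_symm
    (fun _ : ι ⊕ ι => gaussianReal 0 1)
  have e : (fun z : (ι → ℝ) × (ι → ℝ) => splice q z.1 z.2) = rowMap R ∘
      (MeasurableEquiv.sumPiEquivProdPi fun _ : ι ⊕ ι => ℝ).symm := by
    funext z i
    simp [splice, rowMap, R, MeasurableEquiv.sumPiEquivProdPi, Equiv.sumPiEquivProdPi,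
      Fintype.sum_sum_type, sub_mul, sum_sub_distrib, ite_mul]
  rw [e, ← Measure.map_map (measurable_rowMap R) (MeasurableEquiv.measurable _)]
  erw [hsum.map_eq]
  exact gauss_map_rowMap R hR

/-- Resampling inside the range of `q` on an event that does not see it. -/
theorem resample_le {q : ι → ι → ℝ} (hs : ∀ i j, q i j = q j i)
    (hi : ∀ i j, ∑ k, q i k * q k j = q i j) {A B : Set (ι → ℝ)} (hA : MeasurableSet A)
    (hB : MeasurableSet B)
    (hinv : ∀ g g', g - rowMap q g = g' - rowMap q g' → (g ∈ A ↔ g' ∈ A)) {ε : ℝ≥0∞}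
    (hε : ∀ g ∈ A, gauss ι {g' | splice q g g' ∈ B} ≤ ε) :
    gauss ι (A ∩ B) ≤ ε * gauss ι A := by
  have hm : Measurable fun z : (ι → ℝ) × (ι → ℝ) => splice q z.1 z.2 := by
    unfold splice
    exact (measurable_fst.sub ((measurable_rowMap q).comp measurable_fst)).add
      ((measurable_rowMap q).comp measurable_snd)
  have hsame : ∀ g g', (splice q g g' ∈ A ↔ g ∈ A) := by
    intro g g'
    refine hinv _ _ ?_
    simp only [splice, rowMap_add_sub, rowMap_idem hi]
    abel
  conv_lhs => rw [← gauss_map_splice hs hi]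
  rw [Measure.map_apply hm (hA.inter hB),
    Measure.prod_apply (hm (hA.inter hB)),
    ← lintegral_indicator_one hA, ← lintegral_const_mul ε (measurable_one.indicator hA)]
  refine lintegral_mono fun g => ?_
  by_cases hg : g ∈ A
  · rw [Set.indicator_of_mem hg, Pi.one_apply, mul_one]
    exact (measure_mono fun g' h => h.2).trans (hε g hg)
  · have h0 : Prod.mk g ⁻¹' ((fun z : (ι → ℝ) × (ι → ℝ) => splice q z.1 z.2) ⁻¹' (A ∩ B))
        = ∅ := by
      ext g'
      simp [hsame, hg]
    rw [h0, measure_empty]
    exact bot_le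

/-- A bound that holds after resampling on every cell of a discrete history holds outright. -/
theorem resample_partition {H : Type*} [Fintype H] (hist : (ι → ℝ) → H) (q : H → ι → ι → ℝ)
    (hs : ∀ a i j, q a i j = q a j i) (hi : ∀ a i j, ∑ k, q a i k * q a k j = q a i j)
    (hm : ∀ a, MeasurableSet {g | hist g = a})
    (hinv : ∀ a g g', g - rowMap (q a) g = g' - rowMap (q a) g' → (hist g = a ↔ hist g' = a))
    {B : Set (ι → ℝ)} (hB : MeasurableSet B) {ε : ℝ≥0∞}
    (hε : ∀ g, gauss ι {g' | splice (q (hist g)) g g' ∈ B} ≤ ε) :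
    gauss ι B ≤ ε := by
  classical
  have hdec : B = ⋃ a ∈ (univ : Finset H), {g | hist g = a} ∩ B := by
    ext g; simp
  have hdisj : Set.Pairwise (univ : Finset H)
      (Function.onFun Disjoint fun a => {g | hist g = a}) := by
    intro a _ b _ hab
    exact Set.disjoint_left.2 fun g ha hb => hab (ha.symm.trans hb)
  calc gauss ι B ≤ ∑ a, gauss ι ({g | hist g = a} ∩ B) :=
        le_of_eq_of_le (congrArg _ hdec) (measure_biUnion_finset_le _ _)
    _ ≤ ∑ a, ε * gauss ι {g | hist g = a} :=
        sum_le_sum fun a _ => resample_le (hs a) (hi a) (hm a) hB (hinv a) fun g hg => by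
          have : hist g = a := hg
          subst this
          exact hε g
    _ = ε * ∑ a, gauss ι {g | hist g = a} := (mul_sum _ _ _).symm
    _ ≤ ε * 1 := by
        gcongr
        rw [← measure_biUnion_finset (fun a ha b hb h => hdisj ha hb h) fun a _ => hm a]
        exact prob_le_one
    _ = ε := mul_one ε

end Vale.Agent.P150.Beta1
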