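import Mathlib
import Vale.Agent.P150.Beta1.GaussCompare
import Vale.Agent.P150.Beta1.Conc

/-!
# Free edge bound for a deformed symmetrised Gaussian matrix

For unit vectors `a`, the expected supremum of `√(2τ/n)·∑ g_ij a_i a_j - ∑ d_i a_i²` is at most
`μ + (τ/n)·∑ 1/(d_i + μ)` for every shift `μ` with `d_i + μ > 0`.
-/

namespace Vale.Agent.P150.Beta1

open MeasureTheory ProbabilityTheory Finset Real Function

variable {S : Type*} [Fintype S] [Nonempty S] {κ : Type*} [Fintype κ]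

lemma integral_sq_coord [DecidableEq κ] (k : κ) : ∫ g, g k ^ 2 ∂gauss κ = 1 := by
  have h := gauss_ibp (ι := κ) k (F := fun g => g k) (G := fun _ => 1) (continuous_apply k)
    continuous_const (fun g => by simp only [update_self]; exact hasDerivAt_id' (g k))
    ⟨1, 1, fun g => by
      have := single_le_sum (f := fun q => |g q|) (fun q _ => abs_nonneg _) (mem_univ k)
      rw [pow_one, one_mul]; linarith⟩ ⟨1, 0, fun g => by simp⟩
  simpa [sq] using h

lemma integrable_sq_coord (k : κ) : Integrable (fun g => g k ^ 2) (gauss κ) :=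
  PolyGrowth.integrable ⟨1, 2, fun g => by
    have := single_le_sum (f := fun q => |g q|) (fun q _ => abs_nonneg _) (mem_univ k)
    rw [abs_pow, one_mul]
    exact pow_le_pow_left₀ (abs_nonneg _) (by linarith) 2⟩ ((continuous_apply k).pow 2)

/-- Expected free edge of `√τ W - diag d` on a finite set of unit vectors. -/
theorem edge_expectation {n : ℕ} (hn : 0 < n) {τ : ℝ} (hτ : 0 ≤ τ) (d : Fin n → ℝ) {μ : ℝ}
    (hμ : ∀ i, 0 < d i + μ) (v : S → Fin n → ℝ) (hv : ∀ s, ∑ i, v s i ^ 2 = 1) :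
    ∫ g, univ.sup' univ_nonempty
        (fun s => lin (fun p : Fin n × Fin n => √(2 * τ / n) * (v s p.1 * v s p.2)) g
          + -∑ i, d i * v s i ^ 2) ∂gauss (Fin n × Fin n)
      ≤ μ + τ / n * ∑ i, 1 / (d i + μ) := by
  set j₀ : Fin n := ⟨0, hn⟩
  have hn' : (0:ℝ) < n := by exact_mod_cast hn
  set B : S → Fin n × Fin n → ℝ := fun s p =>
    if p.2 = j₀ then 2 * √(τ / n) * v s p.1 else 0
  have hinc : ∀ s t, ∑ p : Fin n × Fin n,
      (√(2 * τ / n) * (v s p.1 * v s p.2) - √(2 * τ / n) * (v t p.1 * v t p.2)) ^ 2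
      ≤ ∑ p, (B s p - B t p) ^ 2 := by
    intro s t
    set ρ := ∑ i, v s i * v t i with hρ
    have hl : ∑ p : Fin n × Fin n,
        (√(2 * τ / n) * (v s p.1 * v s p.2) - √(2 * τ / n) * (v t p.1 * v t p.2)) ^ 2
        = 2 * τ / n * (2 - 2 * ρ ^ 2) := by
      have e : ∀ p : Fin n × Fin n,
          (√(2 * τ / n) * (v s p.1 * v s p.2) - √(2 * τ / n) * (v t p.1 * v t p.2)) ^ 2
          = 2 * τ / n * (v s p.1 ^ 2 * v s p.2 ^ 2 + v t p.1 ^ 2 * v t p.2 ^ 2
              - 2 * (v s p.1 * v t p.1 * (v s p.2 * v t p.2))) := fun p => by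
        rw [← mul_sub, mul_pow, sq_sqrt (by positivity)]
        ring
      simp only [e, ← mul_sum, sum_sub_distrib, sum_add_distrib]
      have f : ∀ a b : Fin n → ℝ, ∑ p : Fin n × Fin n, a p.1 * b p.2 = (∑ i, a i) * ∑ i, b i :=
        fun a b => by rw [Fintype.sum_prod_type, sum_mul_sum]
      rw [f (fun i => v s i ^ 2) (fun i => v s i ^ 2), f (fun i => v t i ^ 2) (fun i => v t i ^ 2),
        f (fun i => v s i * v t i) (fun i => v s i * v t i), hv, hv, ← hρ]
      ring
    have hr : ∑ p, (B s p - B t p) ^ 2 = 4 * (τ / n) * (2 - 2 * ρ) := by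
      rw [Fintype.sum_prod_type]
      have e : ∀ i, ∑ j, (B s (i, j) - B t (i, j)) ^ 2
          = 4 * (τ / n) * (v s i ^ 2 + v t i ^ 2 - 2 * (v s i * v t i)) := fun i => by
        rw [sum_eq_single j₀ (fun j _ hj => by simp [B, hj]) (by simp)]
        simp only [B, if_pos rfl]
        rw [← mul_sub, mul_pow, mul_pow, sq_sqrt (by positivity)]
        ring
      simp only [e, ← mul_sum, sum_sub_distrib, sum_add_distrib, hv, ← hρ]
      ring
    have hρ2 : ρ ^ 2 ≤ 1 := by
      have := sum_mul_sq_le_sq_mul_sq univ (v s) (v t)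
      rw [hv, hv, ← hρ] at this
      linarith
    rw [hl, hr, show 2 * τ / (n:ℝ) = 2 * (τ / n) by ring]
    have h0 : 0 ≤ τ / n := by positivity
    nlinarith [mul_nonneg h0 (sq_nonneg (ρ - 1))]
  refine (sup_comparison _ B (fun s => -∑ i, d i * v s i ^ 2) hinc).trans ?_
  have hpt : ∀ g : Fin n × Fin n → ℝ, univ.sup' univ_nonempty
      (fun s => lin (B s) g + -∑ i, d i * v s i ^ 2)
      ≤ μ + τ / n * ∑ i, g (i, j₀) ^ 2 / (d i + μ) := by
    intro g
    refine sup'_le _ _ fun s _ => ?_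
    have e : lin (B s) g = ∑ i, 2 * √(τ / n) * v s i * g (i, j₀) := by
      simp only [lin]
      rw [Fintype.sum_prod_type]
      refine sum_congr rfl fun i _ => ?_
      rw [sum_eq_single j₀ (fun j _ hj => by simp [B, hj]) (by simp)]
      simp [B]
    have e2 : ∀ i, 2 * √(τ / n) * v s i * g (i, j₀) ≤
        (d i + μ) * v s i ^ 2 + τ / n * (g (i, j₀) ^ 2 / (d i + μ)) := fun i => by
      have h2 : τ / n * (g (i, j₀) ^ 2 / (d i + μ))
          = (√(τ / n) * g (i, j₀)) ^ 2 / (d i + μ) := by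
        rw [mul_pow, sq_sqrt (by positivity)]; ring
      rw [h2]
      have h3 := sq_nonneg ((d i + μ) * v s i - √(τ / n) * g (i, j₀))
      have hne := (hμ i).ne'
      have h4 : (d i + μ) * v s i ^ 2 + (√(τ / n) * g (i, j₀)) ^ 2 / (d i + μ)
          - 2 * √(τ / n) * v s i * g (i, j₀)
          = ((d i + μ) * v s i - √(τ / n) * g (i, j₀)) ^ 2 / (d i + μ) := by
        field_simp
        ring
      have := div_nonneg h3 (hμ i).le
      linarith
    have e3 := sum_le_sum (s := univ) fun i _ => e2 i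
    have e4 : ∑ i, (d i + μ) * v s i ^ 2 = (∑ i, d i * v s i ^ 2) + μ := by
      simp only [add_mul, sum_add_distrib, ← mul_sum, hv, mul_one]
    rw [sum_add_distrib, ← mul_sum, e4] at e3
    rw [e]
    linarith
  have hint : ∀ i : Fin n, Integrable (fun g : Fin n × Fin n → ℝ => g (i, j₀) ^ 2 / (d i + μ))
      (gauss (Fin n × Fin n)) := fun i => (integrable_sq_coord _).div_const _
  have hR := (integrable_const (μ := gauss (Fin n × Fin n)) μ).add
    ((integrable_finsetSum univ fun i _ => hint i).const_mul (τ / n))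
  refine (integral_mono (integrable_sup_lin B _) hR hpt).trans (le_of_eq ?_)
  rw [integral_add' (integrable_const μ)
    ((integrable_finsetSum univ fun i _ => hint i).const_mul (τ / n)), integral_const_mul,
    integral_finsetSum _ fun i _ => hint i]
  simp [integral_div, integral_sq_coord]

end Vale.Agent.P150.Beta1

namespace Vale.Agent.P150.Beta1

open MeasureTheory ProbabilityTheory Finset Real

/-- The deformed matrix `√τ W - diag d` as a quadratic form. -/
noncomputable def defQuad {n : ℕ} (τ : ℝ) (d : Fin n → ℝ) (g : Fin n × Fin n → ℝ)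
    (a : Fin n → ℝ) : ℝ :=
  (∑ p : Fin n × Fin n, √(2 * τ / n) * (a p.1 * a p.2) * g p) + -∑ i, d i * a i ^ 2

/-- The free edge holds with exponential probability, uniformly on the whole unit sphere. -/
theorem edge_tail {n : ℕ} (hn : 0 < n) {τ : ℝ} (hτ : 0 < τ) (d : Fin n → ℝ) {μ : ℝ}
    (hμ : ∀ i, 0 < d i + μ) {r : ℝ} (hr : 0 ≤ r) :
    gauss (Fin n × Fin n) {g | ∃ a : Fin n → ℝ, ∑ i, a i ^ 2 = 1 ∧
        μ + τ / n * ∑ i, 1 / (d i + μ) + r < defQuad τ d g a}
      ≤ ENNReal.ofReal (exp (-(r ^ 2 * n / (8 * τ)))) := by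
  set M := μ + τ / n * ∑ i, 1 / (d i + μ)
  have hn' : (0:ℝ) < n := by exact_mod_cast hn
  let Sph := {a : Fin n → ℝ // ∑ i, a i ^ 2 = 1}
  have : Nonempty Sph := ⟨⟨fun i => if i = (⟨0, hn⟩ : Fin n) then 1 else 0, by simp⟩⟩
  set u : ℕ → Sph := TopologicalSpace.denseSeq Sph
  set E : ℕ → Set (Fin n × Fin n → ℝ) := fun k =>
    {g | ∃ j : Fin (k + 1), M + r < defQuad τ d g (u j).1}
  have hsub : {g : Fin n × Fin n → ℝ | ∃ a : Fin n → ℝ, ∑ i, a i ^ 2 = 1 ∧
      M + r < defQuad τ d g a} ⊆ ⋃ k, E k := by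
    rintro g ⟨a, ha, hlt⟩
    have hopen : IsOpen {b : Sph | M + r < defQuad τ d g b.1} :=
      isOpen_lt continuous_const
        ((show Continuous fun b : Fin n → ℝ => defQuad τ d g b by unfold defQuad; fun_prop).comp
          continuous_subtype_val)
    obtain ⟨k, hk⟩ := (TopologicalSpace.denseRange_denseSeq Sph).exists_mem_open hopen
      ⟨⟨a, ha⟩, hlt⟩
    exact Set.mem_iUnion.2 ⟨k, ⟨k, by omega⟩, hk⟩
  refine (measure_mono hsub).trans ?_
  have hmono : Monotone E := fun k l hkl g ⟨j, hj⟩ => ⟨⟨j, by omega⟩, hj⟩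
  rw [hmono.measure_iUnion]
  refine iSup_le fun k => ?_
  have hE := edge_expectation (S := Fin (k + 1)) hn hτ.le d hμ (fun j => (u j).1)
    fun j => (u j).2
  have hA : ∀ j : Fin (k + 1), ∑ p : Fin n × Fin n,
      (√(2 * τ / n) * ((u j).1 p.1 * (u j).1 p.2)) ^ 2 ≤ √(2 * τ / n) ^ 2 := fun j => by
    simp only [mul_pow, ← mul_sum, Fintype.sum_prod_type, ← sum_mul_sum, (u j).2, mul_one]
    exact le_rfl
  have ht := sup_tail (fun (j : Fin (k + 1)) (p : Fin n × Fin n) =>
      √(2 * τ / n) * ((u j).1 p.1 * (u j).1 p.2))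
    (fun j => -∑ i, d i * (u j).1 i ^ 2) (L := √(2 * τ / n)) (by positivity) hA hr
  rw [sq_sqrt (by positivity), show r ^ 2 / (4 * (2 * τ / n)) = r ^ 2 * n / (8 * τ) by
    field_simp; ring] at ht
  refine (measure_mono (fun g hg => ?_)).trans
    ((ENNReal.le_ofReal_iff_toReal_le (measure_ne_top _ _) (exp_pos _).le).2 ht)
  obtain ⟨j, hj⟩ := hg
  have h2 := le_sup' (fun j : Fin (k + 1) =>
    (∑ p : Fin n × Fin n, √(2 * τ / n) * ((u j).1 p.1 * (u j).1 p.2) * g p)
      + -∑ i, d i * (u j).1 i ^ 2) (mem_univ j)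
  simp only [Set.mem_ofPred_eq, lin] at hE ⊢
  simp only [defQuad] at hj
  linarith

end Vale.Agent.P150.Beta1
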